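import Crest.Agent.R12.AL.Defs

/-! Row 12, block AL: rows of large conductor.  Prefix for helper lemmas: `rwb_`. -/

set_option autoImplicit false

namespace Crest.Agent.R12.AL

open Crest.Agent.R17
open scoped ComplexConjugate

/-- `K = U / (y² z³)`.  `K ≤ U / (y z²)`; `(K M)^(2/3) = (U M)^(2/3) / (y^(4/3) z²) ≤ (U M)^(2/3) / (y z²)`;
`M ≤ (U M)^(2/3) / (y z²)` because `(M y z²)³ ≤ (U M)²` is `M y³ z⁶ ≤ U²`, that is `M ≤ K² y`. -/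
theorem rwb_num {y z U M : ℝ} (hy : 1 ≤ y) (hz : 1 ≤ z) (hU : 0 ≤ U) (hM : 0 ≤ M)
    (h : M ≤ (U / (y ^ 2 * z ^ 3)) ^ 2 * y) :
    U / (y ^ 2 * z ^ 3) + M + (U / (y ^ 2 * z ^ 3) * M) ^ (2 / 3 : ℝ) ≤
      2 * (U + (U * M) ^ (2 / 3 : ℝ)) * (y⁻¹ * (z ^ 2)⁻¹) := by
  have hy0 : 0 < y := by linarith
  have hz0 : 0 < z := by linarith
  have c3 : ∀ a : ℝ, 0 ≤ a → (a ^ (2 / 3 : ℝ)) ^ 3 = a ^ 2 := fun a ha => by
    rw [← Real.rpow_natCast, ← Real.rpow_mul ha]; norm_num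
  set T := (U * M) ^ (2 / 3 : ℝ) with hT
  set w := y⁻¹ * (z ^ 2)⁻¹ with hw
  have hw0 : 0 < w := by positivity
  have hT0 : 0 ≤ T := by positivity
  have hT3 : (T * w) ^ 3 = (U * M) ^ 2 / (y ^ 3 * z ^ 6) := by
    rw [mul_pow, hT, c3 _ (by positivity), hw]; field_simp
  have h1 : U / (y ^ 2 * z ^ 3) ≤ U * w := by
    have : U * w = U / (y * z ^ 2) := by rw [hw]; field_simp
    rw [this]
    refine div_le_div_of_nonneg_left hU (by positivity) ?_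
    have : y * z ^ 2 * 1 ≤ y * z ^ 2 * (y * z) :=
      mul_le_mul_of_nonneg_left (one_le_mul_of_one_le_of_one_le hy hz) (by positivity)
    nlinarith
  have h2 : (U / (y ^ 2 * z ^ 3) * M) ^ (2 / 3 : ℝ) ≤ T * w := by
    refine le_of_pow_le_pow_left₀ (n := 3) (by norm_num) (by positivity) ?_
    rw [c3 _ (by positivity), hT3]
    have : (U / (y ^ 2 * z ^ 3) * M) ^ 2 = (U * M) ^ 2 / (y ^ 3 * z ^ 6 * y) := by field_simp
    rw [this]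
    refine div_le_div_of_nonneg_left (by positivity) (by positivity) ?_
    exact le_mul_of_one_le_right (by positivity) hy
  have h3 : M ≤ T * w := by
    refine le_of_pow_le_pow_left₀ (n := 3) (by norm_num) (by positivity) ?_
    rw [hT3]
    have : (U * M) ^ 2 / (y ^ 3 * z ^ 6) = M ^ 2 * ((U / (y ^ 2 * z ^ 3)) ^ 2 * y) := by field_simp
    rw [this, pow_succ]
    exact mul_le_mul_of_nonneg_left h (by positivity)
  have h4 : 0 ≤ U * w := by positivity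
  nlinarith

theorem rwb_one {ε C₀ : ℝ} (hε : 0 < ε)
    (h : ∀ (K M : ℝ) (S : Finset O) (c : O → ℂ), 1 ≤ K → 1 ≤ M →
      (∀ k ∈ S, PSq k ∧ nm k ≤ K) → Supp c 0 M →
      ∑ k ∈ S, ‖∑ n ∈ ball M, c n * cb k n‖ ^ 2 ≤
        C₀ * (K * M) ^ ε * (K + M + (K * M) ^ (2 / 3 : ℝ)) * N2 c M)
    {U M y z : ℝ} {c : O → ℂ} (hU : 1 ≤ U) (hM : 1 ≤ M) (hc : Supp c 0 M) (v : O) (hy : 1 ≤ y)
    (hz : 1 ≤ z) (hK : 1 ≤ U / (y ^ 2 * z ^ 3)) (hMK : M ≤ (U / (y ^ 2 * z ^ 3)) ^ 2 * y) :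
    ∑ k ∈ sball (U / (y ^ 2 * z ^ 3)), FR c M (v * k) ≤
      (max C₀ 0 * (U * M) ^ ε * (2 * (U + (U * M) ^ (2 / 3 : ℝ))) * N2 c M) * (y⁻¹ * (z ^ 2)⁻¹) := by
  have hnum := rwb_num hy hz (by linarith : 0 ≤ U) (by linarith : 0 ≤ M) hMK
  have hKU : U / (y ^ 2 * z ^ 3) ≤ U :=
    div_le_self (by linarith) (one_le_mul_of_one_le_of_one_le (one_le_pow₀ hy) (one_le_pow₀ hz))
  set K := U / (y ^ 2 * z ^ 3) with hKd
  have h1 := h K M (sball K) (fun n => c n * cb v n) hK hM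
    (fun k hk => ⟨(mem_sball.1 hk).2, (mem_sball.1 hk).1⟩) (hc.mul _)
  have hN := N2_twist c M v
  have hN0 := N2_nonneg (fun n => c n * cb v n) M
  have hp : (K * M) ^ ε ≤ (U * M) ^ ε :=
    Real.rpow_le_rpow (by positivity) (by gcongr) hε.le
  calc ∑ k ∈ sball K, FR c M (v * k) = ∑ k ∈ sball K, FR (fun n => c n * cb v n) M k :=
        Finset.sum_congr rfl fun k _ => FR_mul c M v k
    _ ≤ C₀ * (K * M) ^ ε * (K + M + (K * M) ^ (2 / 3 : ℝ)) * N2 (fun n => c n * cb v n) M := h1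
    _ ≤ max C₀ 0 * (U * M) ^ ε * (2 * (U + (U * M) ^ (2 / 3 : ℝ)) * (y⁻¹ * (z ^ 2)⁻¹)) * N2 c M := by
        have := le_max_left C₀ 0
        have := le_max_right C₀ 0
        gcongr
    _ = _ := by ring

/-- the bound for `nm k₁` -/
noncomputable def rwbK (U : ℝ) (x : O × O) : ℝ := U / (nm x.1 ^ 2 * nm x.2 ^ 3)

open Classical in
/-- the pairs `(k₂, m)` -/
noncomputable def rwbP (U M : ℝ) : Finset (O × O) :=
  (ball U ×ˢ (ball U).filter (· ≠ 0)).filter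
    fun x => x.1 ≠ 0 ∧ 1 ≤ rwbK U x ∧ M ≤ rwbK U x ^ 2 * nm x.1

theorem rwb_mem {U M : ℝ} {x : O × O} : x ∈ rwbP U M ↔ (nm x.1 ≤ U ∧ nm x.2 ≤ U ∧ x.2 ≠ 0) ∧
    x.1 ≠ 0 ∧ 1 ≤ rwbK U x ∧ M ≤ rwbK U x ^ 2 * nm x.1 := by
  simp only [rwbP, Finset.mem_filter, Finset.mem_product, mem_ball]

theorem rwb_cover {U M : ℝ} {S : Finset O} {f : O → ℝ} (hf : ∀ k, 0 ≤ f k)
    (hS : ∀ k ∈ S, nm k ≤ U ∧ ∃ u k₁ k₂ m : O, u ≠ 0 ∧ nm u ≤ 9 ∧ PSq k₁ ∧ k₂ ≠ 0 ∧ m ≠ 0 ∧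
      k = u * (k₁ * k₂ ^ 2) * m ^ 3 ∧ M ≤ nm k₁ ^ 2 * nm k₂) :
    ∑ k ∈ S, f k ≤ ∑ u ∈ ball 9, ∑ x ∈ rwbP U M, ∑ k ∈ sball (rwbK U x),
      f (u * x.1 ^ 2 * x.2 ^ 3 * k) := by
  have hcov := ctb_cover S ((ball 9 ×ˢ rwbP U M).sigma fun x => sball (rwbK U x.2))
    (fun x => x.1.1 * x.1.2.1 ^ 2 * x.1.2.2 ^ 3 * x.2) f hf (by
      intro k hk
      obtain ⟨hkU, u, k₁, k₂, m, hu, hu9, hk₁, hk₂, hm, rfl, hM'⟩ := hS k hk
      have ha := one_le_nm hu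
      have hb := one_le_nm hk₁.1.ne_zero
      have hy := one_le_nm hk₂
      have hz := one_le_nm hm
      rw [nm_mul, nm_mul, nm_mul, nm_pow, nm_pow] at hkU
      have hy2 : nm k₂ ≤ nm k₂ ^ 2 := le_self_pow₀ hy (by norm_num)
      have hz3 : nm m ≤ nm m ^ 3 := le_self_pow₀ hz (by norm_num)
      have h1 : nm k₁ * (nm k₂ ^ 2 * nm m ^ 3) ≤ U := by
        have := le_mul_of_one_le_left
          (by positivity : 0 ≤ nm k₁ * (nm k₂ ^ 2 * nm m ^ 3)) ha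
        linarith
      have h2 : nm k₂ ^ 2 * nm m ^ 3 ≤ U :=
        (le_mul_of_one_le_left (by positivity) hb).trans h1
      have h3 : nm k₁ ≤ rwbK U (k₂, m) := by
        simp only [rwbK]; rwa [le_div_iff₀ (by positivity)]
      refine ⟨⟨(u, k₂, m), k₁⟩, ?_, by simp only []; ring⟩
      refine Finset.mem_sigma.2 ⟨Finset.mem_product.2 ⟨mem_ball.2 hu9, rwb_mem.2
        ⟨⟨?_, ?_, hm⟩, hk₂, hb.trans h3, hM'.trans ?_⟩⟩, mem_sball.2 ⟨h3, hk₁⟩⟩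
      · exact (hy2.trans (le_mul_of_one_le_right (by positivity) (hz.trans hz3))).trans h2
      · exact (hz3.trans (le_mul_of_one_le_left (by positivity) (hy.trans hy2))).trans h2
      · exact mul_le_mul_of_nonneg_right (pow_le_pow_left₀ (by linarith) h3 2) (by linarith))
  rwa [Finset.sum_sigma, Finset.sum_product] at hcov

theorem rwb_wt : ∃ C : ℝ, 0 < C ∧ ∀ U M : ℝ, 1 ≤ U →
    ∑ x ∈ rwbP U M, (nm x.1)⁻¹ * (nm x.2 ^ 2)⁻¹ ≤ C * (1 + Real.log U) := by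
  classical
  obtain ⟨C₂, hC₂, h₂⟩ := sum_nm_rpow_tail (σ := 2) (by norm_num)
  refine ⟨44 * C₂, by positivity, fun U M hU => ?_⟩
  have a1 := sum_inv_nm_le hU (A := ball U) fun n hn => mem_ball.1 hn
  have a2 := h₂ 1 ((ball U).filter (· ≠ 0)) one_pos fun n hn => one_le_nm (Finset.mem_filter.1 hn).2
  rw [Real.one_rpow, mul_one] at a2
  have a3 : ∑ n ∈ (ball U).filter (· ≠ 0), (nm n ^ 2)⁻¹ ≤ C₂ := by
    refine le_of_eq_of_le (Finset.sum_congr rfl fun n _ => ?_) a2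
    rw [Real.rpow_neg (nm_nonneg n), Real.rpow_two]
  have hl : 0 ≤ Real.log U := Real.log_nonneg hU
  calc ∑ x ∈ rwbP U M, (nm x.1)⁻¹ * (nm x.2 ^ 2)⁻¹
      ≤ ∑ x ∈ ball U ×ˢ (ball U).filter (· ≠ 0), (nm x.1)⁻¹ * (nm x.2 ^ 2)⁻¹ := by
        refine Finset.sum_le_sum_of_subset_of_nonneg (fun x hx => ?_) fun x _ _ => ?_
        · obtain ⟨⟨h1, h2, h3⟩, -⟩ := rwb_mem.1 hx
          exact Finset.mem_product.2 ⟨mem_ball.2 h1, Finset.mem_filter.2 ⟨mem_ball.2 h2, h3⟩⟩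
        · have := nm_nonneg x.1
          positivity
    _ = (∑ n ∈ ball U, (nm n)⁻¹) * ∑ n ∈ (ball U).filter (· ≠ 0), (nm n ^ 2)⁻¹ := by
        rw [Finset.sum_mul_sum, Finset.sum_product]
    _ ≤ 44 * (1 + Real.log U) * C₂ :=
        mul_le_mul a1 a3 (Finset.sum_nonneg fun n _ => by positivity) (by positivity)
    _ = _ := by ring

theorem rwb_log {ε U M : ℝ} (hε : 0 < ε) (hU : 1 ≤ U) (hM : 1 ≤ M) :
    1 + Real.log U ≤ (1 + 2 / ε) * (U * M) ^ (ε / 2) := by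
  have b1 := Real.log_le_rpow_div (x := U) (by linarith) (by positivity : 0 < ε / 2)
  have b2 : U ^ (ε / 2) ≤ (U * M) ^ (ε / 2) :=
    Real.rpow_le_rpow (by linarith) (le_mul_of_one_le_right (by linarith) hM) (by positivity)
  have b3 : 1 ≤ U ^ (ε / 2) := Real.one_le_rpow hU (by positivity)
  have b4 : U ^ (ε / 2) / (ε / 2) = 2 / ε * U ^ (ε / 2) := by field_simp
  have b5 : 2 / ε * U ^ (ε / 2) ≤ 2 / ε * (U * M) ^ (ε / 2) := by gcongr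
  linarith

/-- Cover `S` (`ctb_cover`, `FR_nonneg`) by `(u, k₂, m, k₁)`, `g = u * k₂ ^ 2 * m ^ 3 * k₁`, with `u ∈ ball 9`,
`(k₂, m) ∈ P = (ball U ×ˢ ball U).filter` (`k₂ ≠ 0`, `m ≠ 0`, `1 ≤ K`, `M ≤ K ^ 2 * nm k₂`), where
`K = U / (nm k₂ ^ 2 * nm m ^ 3)`, and `k₁ ∈ sball K` (`nm k₁ ≤ K` because `1 ≤ nm u`).  For fixed `(u, k₂, m)`:
`FR_mul`, `StLS` with `ε / 2` and this `K` (the constant of `StLS` may be negative: replace it by `max C 0`;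
`(K M)^(ε/2) ≤ (U M)^(ε/2)`), `Supp.mul`, `N2_twist`, `rwb_num`.  Then
`∑_P (nm k₂)⁻¹ (nm m ^ 2)⁻¹ ≤ 44 (1 + log U) · C` (`sum_inv_nm_le`, `sum_nm_rpow_tail` with `σ = 2`, `X = 1`) and
`1 + log U ≤ (1 + 2/ε) U^(ε/2)` (`Real.log_le_rpow_div`). -/
theorem rowB (h : StLS) {ε : ℝ} (hε : 0 < ε) : ∃ C : ℝ, 0 < C ∧
    ∀ (U M : ℝ) (S : Finset O) (c : O → ℂ), 1 ≤ U → 1 ≤ M → Supp c 0 M →
    (∀ k ∈ S, nm k ≤ U ∧ ∃ u k₁ k₂ m : O, u ≠ 0 ∧ nm u ≤ 9 ∧ PSq k₁ ∧ k₂ ≠ 0 ∧ m ≠ 0 ∧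
      k = u * (k₁ * k₂ ^ 2) * m ^ 3 ∧ M ≤ nm k₁ ^ 2 * nm k₂) →
    ∑ k ∈ S, FR c M k ≤ C * ((U * M) ^ ε * (U + (U * M) ^ (2 / 3 : ℝ))) * N2 c M := by
  obtain ⟨C₀, h₀⟩ := h (ε / 2) (by positivity)
  obtain ⟨C₂, hC₂, h₂⟩ := rwb_wt
  have hm0 := le_max_right C₀ 0
  refine ⟨99 * (C₂ * (1 + 2 / ε)) * (max C₀ 0 * 2) + 1, by positivity, ?_⟩
  intro U M S c hU hM hc hS
  obtain ⟨E, hE⟩ : ∃ E : ℝ,
    E = max C₀ 0 * (U * M) ^ (ε / 2) * (2 * (U + (U * M) ^ (2 / 3 : ℝ))) * N2 c M := ⟨_, rfl⟩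
  have hN := N2_nonneg c M
  have hE0 : 0 ≤ E := by rw [hE]; positivity
  have hw := h₂ U M hU
  have hlog := rwb_log hε hU hM
  have h9 := card_ball_le (X := 9) (by norm_num)
  have hsq : (U * M) ^ ε = (U * M) ^ (ε / 2) * (U * M) ^ (ε / 2) := by
    rw [← Real.rpow_add (by positivity), add_halves]
  have hX : 0 ≤ (U * M) ^ ε * (U + (U * M) ^ (2 / 3 : ℝ)) * N2 c M := by positivity
  calc ∑ k ∈ S, FR c M k ≤ _ := rwb_cover (FR_nonneg c M) hS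
    _ ≤ ∑ _u ∈ ball 9, ∑ x ∈ rwbP U M, E * ((nm x.1)⁻¹ * (nm x.2 ^ 2)⁻¹) := by
        refine Finset.sum_le_sum fun u _ => Finset.sum_le_sum fun x hx => ?_
        obtain ⟨⟨-, -, hx1⟩, hx2, hx3, hx4⟩ := rwb_mem.1 hx
        rw [hE]
        exact rwb_one (by positivity) h₀ hU hM hc _ (one_le_nm hx2) (one_le_nm hx1) hx3 hx4
    _ = (ball 9).card * (E * ∑ x ∈ rwbP U M, (nm x.1)⁻¹ * (nm x.2 ^ 2)⁻¹) := by
        rw [Finset.sum_const, nsmul_eq_mul, ← Finset.mul_sum]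
    _ ≤ 99 * (E * (C₂ * ((1 + 2 / ε) * (U * M) ^ (ε / 2)))) := by
        refine mul_le_mul (by linarith) (mul_le_mul_of_nonneg_left
          (hw.trans (mul_le_mul_of_nonneg_left hlog hC₂.le)) hE0)
          (mul_nonneg hE0 (Finset.sum_nonneg fun x _ => ?_)) (by norm_num)
        have := nm_nonneg x.1
        positivity
    _ = 99 * (C₂ * (1 + 2 / ε)) * (max C₀ 0 * 2) *
          ((U * M) ^ ε * (U + (U * M) ^ (2 / 3 : ℝ)) * N2 c M) := by rw [hE, hsq]; ring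
    _ ≤ _ := by linarith

end Crest.Agent.R12.AL
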