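import Crest.Agent.R12.AL.RowA
import Crest.Agent.R12.AL.RowB

/-! Row 12, block AL: all rows.  Prefix for helper lemmas: `alr_`. -/

set_option autoImplicit false

namespace Crest.Agent.R12.AL

open Crest.Agent.R17
open scoped ComplexConjugate

/-- `exists_decomp` (`k = ζ λ^j n`), `Prim.exists_powFree` with `3` (`n = k₀ b³`) and then with `2`
(`k₀ = k₁ k₂²`, `powFree_two`); `u = ζ λ^(j % 3)`, `m = λ^(j / 3) b`. -/
theorem alr_decomp {k : O} (hk : k ≠ 0) : ∃ u k₁ k₂ m : O, u ≠ 0 ∧ nm u ≤ 9 ∧ PSq k₁ ∧ Prim k₂ ∧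
    PowFree 3 (k₁ * k₂ ^ 2) ∧ m ≠ 0 ∧ k = u * (k₁ * k₂ ^ 2) * m ^ 3 := by
  obtain ⟨ζ, j, n, hζ, hn, rfl⟩ := exists_decomp hk
  obtain ⟨k₀, b, h0, hb, hf, rfl⟩ := hn.exists_powFree (k := 3) (by norm_num)
  obtain ⟨k₁, k₂, h1, h2, hf2, rfl⟩ := h0.exists_powFree (k := 2) (by norm_num)
  refine ⟨ζ * lam ^ (j % 3), k₁, k₂, lam ^ (j / 3) * b,
    mul_ne_zero hζ.ne_zero (pow_ne_zero _ prime_lam.ne_zero), ?_,
    ⟨h1, (powFree_two h1.ne_zero).1 hf2⟩, h2, hf,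
    mul_ne_zero (pow_ne_zero _ prime_lam.ne_zero) hb.ne_zero, ?_⟩
  · rw [nm_mul, nm_unit hζ, nm_pow, nm_lam, one_mul]
    calc (3 : ℝ) ^ (j % 3) ≤ 3 ^ 2 := pow_le_pow_right₀ (by norm_num) (by omega)
      _ = 9 := by norm_num
  · conv_lhs => rw [← Nat.mod_add_div j 3]
    ring

/-- Split `S` by the predicate `P k` = the hypothesis of `rowA` (`Finset.sum_filter_add_sum_filter_not`); a row
failing `P` satisfies the hypothesis of `rowB` (`alr_decomp`; `Q * nm m ^ 3 ≤ nm (u k₁ k₂²) * nm m ^ 3 = nm k ≤ U`).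
`(U / Q)^(1/3) ≤ 2 U^(1/3) Q^(-3/10)` for `Q ≥ 1/2` (`Q^(-1/30) ≤ 2^(1/30) ≤ 2`), and
`1 + log U ≤ (1 + 1/ε) (U M)^ε` (`Real.log_le_rpow_div`). -/
theorem all (h : StLS) : StAll := by
  classical
  intro ε hε
  obtain ⟨A, hA, HA⟩ := rowA
  obtain ⟨B, hB, HB⟩ := rowB h hε
  refine ⟨A * (2 + ε⁻¹) + B, fun U M Q S c hU hM hQ hS hc => ?_⟩
  have hQ0 : 0 < Q := by linarith
  have hU0 : 0 < U := by linarith
  have hN : 0 ≤ N2 c M := Finset.sum_nonneg fun _ _ => sq_nonneg _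
  let P : O → Prop := fun k => nm k ≤ U ∧ ∃ u k₁ k₂ m : O, u ≠ 0 ∧ nm u ≤ 9 ∧ Prim k₁ ∧ Prim k₂ ∧
    PowFree 3 (k₁ * k₂ ^ 2) ∧ m ≠ 0 ∧ k = u * (k₁ * k₂ ^ 2) * m ^ 3 ∧ Q * nm m ^ 3 ≤ U ∧
    nm k₁ ^ 2 * nm k₂ ≤ M
  have h1 := HA U M Q (S.filter P) c hU hM hQ0 hc fun k hk => (Finset.mem_filter.1 hk).2
  have h2 := HB U M (S.filter fun k => ¬ P k) c hU hM hc fun k hk => by
    obtain ⟨hk1, hk2⟩ := Finset.mem_filter.1 hk
    obtain ⟨a1, a2, a3⟩ := hS k hk1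
    obtain ⟨u, k₁, k₂, m, b1, b2, b3, b4, b5, b6, b7⟩ := alr_decomp a1
    refine ⟨a2, u, k₁, k₂, m, b1, b2, b3, b4.ne_zero, b6, b7, ?_⟩
    by_contra hlt
    refine hk2 ⟨a2, u, k₁, k₂, m, b1, b2, b3.1, b4, b5, b6, b7, ?_, (not_le.1 hlt).le⟩
    refine le_trans (mul_le_mul_of_nonneg_right (a3 _ m b7).le (pow_nonneg (nm_nonneg m) 3)) ?_
    rwa [← nm_pow, ← nm_mul, ← b7]
  have h3 : (U / Q) ^ (1 / 3 : ℝ) ≤ 2 * (U ^ (1 / 3 : ℝ) * Q ^ (-(3 / 10) : ℝ)) := by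
    have e1 : Q ^ (-(1 / 30) : ℝ) ≤ 2 := by
      calc Q ^ (-(1 / 30) : ℝ) ≤ (1 / 2 : ℝ) ^ (-(1 / 30) : ℝ) :=
            Real.rpow_le_rpow_of_nonpos (by norm_num) hQ (by norm_num)
        _ = (2 : ℝ) ^ (1 / 30 : ℝ) := by
            rw [one_div (2 : ℝ), Real.inv_rpow (by norm_num), ← Real.rpow_neg (by norm_num), neg_neg]
        _ ≤ 2 ^ (1 : ℝ) := Real.rpow_le_rpow_of_exponent_le (by norm_num) (by norm_num)
        _ = 2 := Real.rpow_one 2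
    have e2 : (U / Q) ^ (1 / 3 : ℝ) =
        Q ^ (-(1 / 30) : ℝ) * (U ^ (1 / 3 : ℝ) * Q ^ (-(3 / 10) : ℝ)) := by
      rw [Real.div_rpow hU0.le hQ0.le, div_eq_mul_inv, ← Real.rpow_neg hQ0.le, mul_left_comm,
        ← Real.rpow_add hQ0]
      norm_num
    rw [e2]
    gcongr
  have hUM : 1 ≤ U * M := one_le_mul_of_one_le_of_one_le hU hM
  have h4 : 1 + Real.log U ≤ (2 + ε⁻¹) * (U * M) ^ ε := by
    have e1 : 1 ≤ (U * M) ^ ε := Real.one_le_rpow hUM hε.le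
    have e2 : Real.log U ≤ Real.log (U * M) :=
      Real.log_le_log hU0 (le_mul_of_one_le_right hU0.le hM)
    have e3 := Real.log_le_rpow_div (x := U * M) (by positivity) hε
    rw [div_eq_inv_mul] at e3
    linarith
  obtain ⟨X, hX⟩ : ∃ X, X = U ^ (1 / 3 : ℝ) * Q ^ (-(3 / 10) : ℝ) := ⟨_, rfl⟩
  obtain ⟨Y, hY⟩ : ∃ Y, Y = (U * M) ^ (2 / 3 : ℝ) := ⟨_, rfl⟩
  obtain ⟨Z, hZ⟩ : ∃ Z, Z = (U * M) ^ ε := ⟨_, rfl⟩
  have hX0 : 0 ≤ X := by rw [hX]; positivity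
  have hY0 : 0 ≤ Y := by rw [hY]; positivity
  have hZ0 : 0 ≤ Z := by rw [hZ]; positivity
  have hε' : 0 ≤ ε⁻¹ := by positivity
  rw [← hX] at h3
  rw [← hZ] at h4
  rw [← hY] at h1
  rw [← hY, ← hZ] at h2
  rw [← hX, ← hY, ← hZ]
  have h5 : (U / Q) ^ (1 / 3 : ℝ) * M + Y * (1 + Real.log U) ≤ (2 + ε⁻¹) * (X * M + Z * (U + Y)) := by
    have e1 : (U / Q) ^ (1 / 3 : ℝ) * M ≤ (2 + ε⁻¹) * X * M := by
      gcongr
      nlinarith [mul_nonneg hε' hX0]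
    have e2 : Y * (1 + Real.log U) ≤ (U + Y) * ((2 + ε⁻¹) * Z) :=
      mul_le_mul (by linarith) h4 (by linarith [Real.log_nonneg hU]) (by linarith)
    linarith
  have h6 : Z * (U + Y) ≤ X * M + Z * (U + Y) := le_add_of_nonneg_left (by positivity)
  refine (Finset.sum_filter_add_sum_filter_not S P (FR c M)).symm.trans_le
    ((add_le_add h1 h2).trans ?_)
  rw [← add_mul]
  refine mul_le_mul_of_nonneg_right ?_ hN
  rw [add_mul, mul_assoc]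
  gcongr

end Crest.Agent.R12.AL
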