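import Crest.Agent.R12.AL.Defs
import Crest.Agent.R17.D.Zero

/-! Row 12, block AL: the classical large sieve for cube-free primary rows.
Prefix for helper lemmas: `cls_`. -/

set_option autoImplicit false

namespace Crest.Agent.R12.AL

open Crest.Agent.R17
open scoped ComplexConjugate

/-- If `k k'² = m³` then `m = u m'` with `u` a unit and `m'` primary (`exists_unit_prim`; `λ ∤ m`), `u³` is a
primary unit (`Prim.of_mul`), so `m³ = m'³` and `k * k'³ = k' * m'³`; `powFree_unique`. -/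
theorem cls_not_cube {k k' : O} (hk : Prim k) (hk' : Prim k') (h : PowFree 3 k) (h' : PowFree 3 k')
    (hne : k ≠ k') : ¬ ∃ m, k * k' ^ 2 = m ^ 3 := by
  rintro ⟨m, hm⟩
  have hp : Prim (k * k' ^ 2) := hk.mul (hk'.pow 2)
  have hl : ¬ lam ∣ m := fun hd => hp.not_lam_dvd (hm ▸ dvd_pow hd (by norm_num))
  obtain ⟨u, m', hu, hm', rfl⟩ := exists_unit_prim hl
  have h1 : Prim (u ^ 3) := (hm'.pow 3).of_mul (by rw [mul_comm, ← mul_pow, ← hm]; exact hp)
  rw [mul_pow, h1.eq_one_of_isUnit (hu.pow 3), one_mul] at hm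
  exact hne (powFree_unique (by norm_num) hk' hm' h h' (by rw [← hm]; ring)).1

/-- `n ↦ cb n e` is periodic modulo `q` if `e ∣ q ^ j` (`cb_congr_rad`, `Prime.dvd_of_dvd_pow`). -/
theorem cls_per {e q : O} {j : ℕ} (h : e ∣ q ^ j) : Per q fun n => cb n e :=
  fun _ _ hab => cb_congr_rad fun _ hp hpe => (hp.dvd_of_dvd_pow (hpe.trans h)).trans hab

/-- Take `q' = rad e` first: `D.exists_cb_ne_one` gives a primary `a` coprime to `e` with
`cb a e = cb e a ≠ 1` (`cb_recip`); `a` is coprime to `rad e` (`rad_dvd`), so `rsum_mul_arg` and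
`cb_mul_left`, `rsum_mul_left` give `rsum = cb a e * rsum`.  (`Prim.dvd_rad_pow` for the periodicity.) -/
theorem cls_zero {e : O} (he : Prim e) (h : ¬ ∃ m, e = m ^ 3) : rsum (rad e) (fun n => cb n e) = 0 := by
  obtain ⟨a, ha, hae, h1⟩ := D.exists_cb_ne_one he.ne_zero h
  obtain ⟨j, hj⟩ := he.dvd_rad_pow
  have h2 := rsum_mul_arg (prim_rad e).ne_zero (hae.of_isCoprime_of_dvd_right (rad_dvd e)) (cls_per hj)
  simp only [cb_mul_left] at h2
  rw [rsum_mul_left, cb_recip ha he] at h2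
  by_contra h0
  exact h1 (mul_right_cancel₀ h0 (h2.trans (one_mul _).symm))

/-- `poisson` modulo `q = rad e` (`nm q ≤ R` because `rad e ∣ D`: squarefree product of primes dividing `D`;
or use modulus `D` itself and `rsum_lift`), the term `h = 0` vanishes (`FT_zero`, `cls_zero`),
`‖FT q Ψ h‖ ≤ nm q` (`norm_FT_le`), `∑_{h ≠ 0} gw (nm q / K) h ≤ 22 (nm q / K) exp (-(K / nm q))`
(`sum_gw_tail` with `X = 1`, `Summable.tsum_le_of_sum_le` or `tsum_le_of_sum_le'`), so the sum has norm at most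
`22 nm q * exp (-(K / nm q)) ≤ 22 R exp (-(K / R))`. -/
theorem cls_off {e D : O} {j : ℕ} (he : Prim e) (h : ¬ ∃ m, e = m ^ 3) (hD : D ≠ 0) (hd : e ∣ D ^ j)
    {K R : ℝ} (hK : 0 < K) (hR : nm D ≤ R) :
    ‖∑' n : O, cb n e * (gw K n : ℂ)‖ ≤ 22 * R * Real.exp (-(K / R)) := by
  obtain ⟨i, hi⟩ := he.dvd_rad_pow
  have hq0 := (prim_rad e).ne_zero
  have hq := nm_pos hq0
  have hqR : nm (rad e) ≤ R :=
    (nm_le_of_dvd ((squarefree_rad e).isRadical j D ((rad_dvd e).trans hd)) hD).trans hR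
  have hK' : 0 < nm (rad e) / K := div_pos hq hK
  have h1 := sob_cmp (φ := fun h : O => h) Function.injective_id
    (f := fun k => ‖FT (rad e) (fun n => cb n e) k * (gw (nm (rad e) / K) k : ℂ)‖) (g := gw (nm (rad e) / K))
    (B := 22 * (nm (rad e) / K) * Real.exp (-(1 / (nm (rad e) / K)))) hq.le (fun _ => norm_nonneg _)
    (fun k hk => by rw [hk, FT_zero, cls_zero he h, zero_mul, norm_zero])
    (fun k _ => by
      rw [norm_mul, Complex.norm_real, Real.norm_of_nonneg (gw_pos _ _).le]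
      refine mul_le_mul_of_nonneg_right ?_ (gw_pos _ _).le
      simpa using norm_FT_le hq0 (fun y => norm_cb_le y e) k)
    (fun S hS => sum_gw_tail hK' fun k hk => ⟨hS k hk, one_le_nm (hS k hk)⟩)
  rw [poisson hq0 (cls_per hi) hK, norm_mul, Complex.norm_real, Real.norm_of_nonneg (div_pos hK hq).le]
  calc K / nm (rad e) * ‖∑' k : O, FT (rad e) (fun n => cb n e) k * (gw (nm (rad e) / K) k : ℂ)‖
      ≤ K / nm (rad e) * (nm (rad e) * (22 * (nm (rad e) / K) * Real.exp (-(1 / (nm (rad e) / K))))) :=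
        mul_le_mul_of_nonneg_left ((norm_tsum_le_tsum_norm h1.1).trans h1.2) (div_pos hK hq).le
    _ = 22 * nm (rad e) * Real.exp (-(K / nm (rad e))) := by
        rw [one_div_div]
        field_simp
    _ ≤ _ := by
        have := hq.trans_le hqR
        gcongr

/-- The dual form.  `K = M + R log W` (if `R = 0` then `T = ∅`).  The left side is at most
`e⁴ ∑_{n ∈ ball M} gw K n ‖…‖² ≤ e⁴ ∑' n, gw K n ‖…‖²` (`le_gw`); expand the square:
`∑_{k,k'} a k conj (a k') ∑' n, cb n (k k'²) gw K n` (`conj_cb`, `cb_mul_right`, `cb_pow_right`; summability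
`poa_summable`); diagonal `≤ (1 + 11 K) ‖a k‖²` (`tsum_gw_le`), off-diagonal `cls_off` with modulus `D D'`,
`nm (D D') ≤ R` (from `nm D ^ 2 ≤ R`, `nm D' ^ 2 ≤ R`), `k k'² ∣ (D D')^4`, bound `22 R / W`, and
`∑_{k,k'} ‖a k‖ ‖a k'‖ ≤ card T * ∑ ‖a k‖²` (`sq_sum_le_card_mul_sum_sq`). -/
theorem cls_dual : ∃ C : ℝ, 0 < C ∧ ∀ (M R W : ℝ) (T : Finset O) (a : O → ℂ), 1 ≤ M → 0 ≤ R → 1 ≤ W →
    (T.card : ℝ) ≤ W → (∀ k ∈ T, Prim k ∧ PowFree 3 k ∧ ∃ D : O, D ≠ 0 ∧ k ∣ D ^ 2 ∧ nm D ^ 2 ≤ R) →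
    ∑ n ∈ ball M, ‖∑ k ∈ T, a k * cb n k‖ ^ 2 ≤ C * (M + R * (1 + Real.log W)) * ∑ k ∈ T, ‖a k‖ ^ 2 := by
  classical
  refine ⟨Real.exp 4 * 22, by positivity, fun M R W T a hM hR hW hc hT => ?_⟩
  have hlog : 0 ≤ Real.log W := Real.log_nonneg hW
  have hRl : 0 ≤ R * Real.log W := mul_nonneg hR hlog
  obtain ⟨K, hKd⟩ : ∃ K, K = M + R * Real.log W := ⟨_, rfl⟩
  have hK : 0 < K := by linarith
  have hW0 : 0 < W := by linarith
  have hG : ∀ k ∈ T, ∀ k' ∈ T, ‖∑' n : O, cb n (k * k' ^ 2) * (gw K n : ℂ)‖ ≤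
      (if k = k' then 1 + 11 * K else 0) + 22 * R / W := by
    intro k hk k' hk'
    split_ifs with h
    · have h1 : ‖∑' n : O, cb n (k * k' ^ 2) * (gw K n : ℂ)‖ ≤ ∑' n, gw K n := by
        refine tsum_of_norm_bounded (summable_gw hK).hasSum fun n => ?_
        rw [norm_mul, Complex.norm_real, Real.norm_of_nonneg (gw_pos K n).le]
        exact mul_le_of_le_one_left (gw_pos K n).le (norm_cb_le _ _)
      have h2 : 0 ≤ 22 * R / W := by positivity
      linarith [tsum_gw_le hK]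
    · obtain ⟨p1, f1, D, d0, d1, d2⟩ := hT k hk
      obtain ⟨p2, f2, D', d0', d1', d2'⟩ := hT k' hk'
      have hp : Prim (k * k' ^ 2) := Pr.mul_mem p1 (Pr.pow_mem p2 2)
      have hd : k * k' ^ 2 ∣ (D * D') ^ 4 := by
        rw [mul_pow]
        refine mul_dvd_mul (d1.trans (pow_dvd_pow _ (by norm_num))) ?_
        rw [show D' ^ 4 = (D' ^ 2) ^ 2 by ring]
        exact pow_dvd_pow_of_dvd d1' 2
      have hn : nm (D * D') ≤ R := by
        rw [nm_mul]
        nlinarith [sq_nonneg (nm D - nm D')]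
      have hR0 : 0 < R := (nm_pos (mul_ne_zero d0 d0')).trans_le hn
      refine (cls_off hp (cls_not_cube p1 p2 f1 f2 h) (mul_ne_zero d0 d0') hd hK hn).trans ?_
      rw [zero_add, div_eq_mul_inv (22 * R), ← Real.exp_log hW0, ← Real.exp_neg]
      gcongr
      rw [le_div_iff₀ hR0]
      linarith
  have hS : HasSum (fun n : O => ((gw K n * ‖∑ k ∈ T, a k * cb n k‖ ^ 2 : ℝ) : ℂ))
      (∑ k ∈ T, ∑ k' ∈ T, a k * conj (a k') * ∑' n : O, cb n (k * k' ^ 2) * (gw K n : ℂ)) := by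
    have e : ∀ n : O, ((gw K n * ‖∑ k ∈ T, a k * cb n k‖ ^ 2 : ℝ) : ℂ) =
        ∑ k ∈ T, ∑ k' ∈ T, a k * conj (a k') * (cb n (k * k' ^ 2) * (gw K n : ℂ)) := by
      intro n
      rw [Complex.ofReal_mul, Complex.ofReal_pow, ← Complex.mul_conj', map_sum, Finset.sum_mul_sum,
        Finset.mul_sum]
      refine Finset.sum_congr rfl fun k _ => ?_
      rw [Finset.mul_sum]
      refine Finset.sum_congr rfl fun k' _ => ?_
      rw [map_mul, conj_cb, cb_mul_right, cb_pow_right]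
      ring
    simp only [e]
    exact hasSum_sum fun k _ => hasSum_sum fun k' _ =>
      (poa_summable (fun n => norm_cb_le n _) hK).hasSum.mul_left _
  have h1 := sum_le_hasSum (ball M) (fun n _ => by
    have := gw_pos K n
    simp only [Complex.ofReal_re]
    positivity) (Complex.hasSum_re hS)
  simp only [Complex.ofReal_re] at h1
  have h2 : ∑ n ∈ ball M, ‖∑ k ∈ T, a k * cb n k‖ ^ 2 ≤
      Real.exp 4 * ∑ n ∈ ball M, gw K n * ‖∑ k ∈ T, a k * cb n k‖ ^ 2 := by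
    rw [Finset.mul_sum]
    refine Finset.sum_le_sum fun n hn => ?_
    rw [← mul_assoc]
    refine le_mul_of_one_le_left (by positivity) ?_
    have h := le_gw hK (k := n) ((mem_ball.1 hn).trans (by linarith))
    calc (1 : ℝ) = Real.exp 4 * Real.exp (-4) := by rw [← Real.exp_add]; simp
      _ ≤ _ := by gcongr
  have h3 : (∑ k ∈ T, ∑ k' ∈ T, a k * conj (a k') *
      ∑' n : O, cb n (k * k' ^ 2) * (gw K n : ℂ)).re ≤
      ∑ k ∈ T, ∑ k' ∈ T, ‖a k‖ * ‖a k'‖ * ((if k = k' then 1 + 11 * K else 0) + 22 * R / W) := by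
    refine (Complex.re_le_norm _).trans ((norm_sum_le _ _).trans (Finset.sum_le_sum fun k hk =>
      (norm_sum_le _ _).trans (Finset.sum_le_sum fun k' hk' => ?_)))
    rw [norm_mul, norm_mul, Complex.norm_conj]
    exact mul_le_mul_of_nonneg_left (hG k hk k' hk') (by positivity)
  have h4 : ∑ k ∈ T, ∑ k' ∈ T, ‖a k‖ * ‖a k'‖ * ((if k = k' then 1 + 11 * K else 0) + 22 * R / W) =
      (1 + 11 * K) * ∑ k ∈ T, ‖a k‖ ^ 2 + 22 * R / W * (∑ k ∈ T, ‖a k‖) ^ 2 := by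
    rw [sq (∑ k ∈ T, ‖a k‖), Finset.sum_mul_sum, Finset.mul_sum, Finset.mul_sum,
      ← Finset.sum_add_distrib]
    refine Finset.sum_congr rfl fun k hk => ?_
    simp only [mul_add, mul_ite, mul_zero, Finset.sum_add_distrib, Finset.sum_ite_eq, if_pos hk,
      Finset.mul_sum]
    congr 1
    · ring
    · exact Finset.sum_congr rfl fun _ _ => mul_comm _ _
  have h0 : 0 ≤ ∑ k ∈ T, ‖a k‖ ^ 2 := by positivity
  have h5 : 22 * R / W * (∑ k ∈ T, ‖a k‖) ^ 2 ≤ 22 * R * ∑ k ∈ T, ‖a k‖ ^ 2 :=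
    calc _ ≤ 22 * R / W * (W * ∑ k ∈ T, ‖a k‖ ^ 2) :=
          mul_le_mul_of_nonneg_left (sq_sum_le_card_mul_sum_sq.trans (by gcongr)) (by positivity)
      _ = _ := by field_simp
  have h6 : (1 + 11 * K + 22 * R) * ∑ k ∈ T, ‖a k‖ ^ 2 ≤
      22 * (M + R * (1 + Real.log W)) * ∑ k ∈ T, ‖a k‖ ^ 2 :=
    mul_le_mul_of_nonneg_right (by linarith) h0
  refine h2.trans ?_
  rw [mul_assoc, mul_assoc]
  exact mul_le_mul_of_nonneg_left (by linarith) (Real.exp_pos 4).le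

/-- `duality` (Base/Cube) with the matrix `M k n = cb n k`, `cls_dual`; `c n * cb k n = c n * cb n k` by `cb_recip` (or `c n = 0`). -/
theorem cls : ∃ C : ℝ, 0 < C ∧ ∀ (M R W : ℝ) (T : Finset O) (c : O → ℂ), 1 ≤ M → 0 ≤ R → 1 ≤ W →
    (T.card : ℝ) ≤ W → (∀ k ∈ T, Prim k ∧ PowFree 3 k ∧ ∃ D : O, D ≠ 0 ∧ k ∣ D ^ 2 ∧ nm D ^ 2 ≤ R) →
    Supp c 0 M → ∑ k ∈ T, FR c M k ≤ C * (M + R * (1 + Real.log W)) * N2 c M := by
  obtain ⟨C, hC, h⟩ := cls_dual
  refine ⟨C, hC, fun M R W T c hM hR hW hc hT hS => ?_⟩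
  have hlog : 0 ≤ Real.log W := Real.log_nonneg hW
  have h1 := duality T (ball M) (fun k n => cb n k) (by positivity)
    (fun a => h M R W T a hM hR hW hc hT) c
  refine le_of_eq_of_le (Finset.sum_congr rfl fun k hk => ?_) h1
  unfold FR
  congr 2
  refine Finset.sum_congr rfl fun n _ => ?_
  by_cases h0 : c n = 0
  · rw [h0, zero_mul, zero_mul]
  · rw [cb_recip (hT k hk).1 (hS n h0).1.1]

end Crest.Agent.R12.AL
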