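import Crest.Agent.R12.Base.All

/-! Row 12, block AL (owner helper30): the square of a column sum and twisting. -/

set_option autoImplicit false

namespace Crest.Agent.R12.AL

open Crest.Agent.R17
open scoped ComplexConjugate

/-- the square of the column sum of row `k` -/
noncomputable def FR (c : O → ℂ) (M : ℝ) (k : O) : ℝ := ‖∑ n ∈ ball M, c n * cb k n‖ ^ 2

theorem FR_nonneg (c : O → ℂ) (M : ℝ) (k : O) : 0 ≤ FR c M k := by unfold FR; positivity

/-- a factor of the row is absorbed in the coefficients -/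
theorem FR_mul (c : O → ℂ) (M : ℝ) (v k : O) :
    FR c M (v * k) = FR (fun n => c n * cb v n) M k := by
  simp only [FR, cb_mul_left, mul_assoc]

theorem N2_mul_le (c : O → ℂ) (M : ℝ) {w : O → ℂ} (hw : ∀ n, ‖w n‖ ≤ 1) :
    N2 (fun n => c n * w n) M ≤ N2 c M :=
  Finset.sum_le_sum fun n _ => pow_le_pow_left₀ (norm_nonneg _)
    ((norm_mul _ _).trans_le (mul_le_of_le_one_right (norm_nonneg _) (hw n))) 2

theorem N2_twist (c : O → ℂ) (M : ℝ) (v : O) : N2 (fun n => c n * cb v n) M ≤ N2 c M :=
  N2_mul_le c M fun n => norm_cb_le v n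

end Crest.Agent.R12.AL
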