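import Crest.Agent.R12.AL.Defs

/-! Row 12, block AL: energy over rows in a short interval.  Prefix for helper lemmas: `enl_`. -/

set_option autoImplicit false

namespace Crest.Agent.R12.AL

open Crest.Agent.R17
open scoped ComplexConjugate

theorem enl_pow {u θ : ℝ} (hu : 0 < u) (h1 : 1 / 2 ≤ θ) (h2 : θ ≤ 5 / 2) :
    u ^ θ ≤ u ^ (1 / 2 : ℝ) + u ^ (5 / 2 : ℝ) := by
  rcases le_total u 1 with h | h
  · exact le_add_of_le_of_nonneg (Real.rpow_le_rpow_of_exponent_ge hu h h1) (by positivity)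
  · exact le_add_of_nonneg_of_le (by positivity) (Real.rpow_le_rpow_of_exponent_le h h2)

theorem enl_num {U K M X ε : ℝ} (hU : 0 < U) (hK : 0 < K) (hM : 0 ≤ M) (hMX : M ≤ X) (hε : 0 < ε)
    (hε' : ε ≤ 1 / 2) :
    U ^ (1 / 3 : ℝ) * (1 / 2 : ℝ) ^ (-(3 / 10) : ℝ) * M + (U * M) ^ ε * (U + (U * M) ^ (2 / 3 : ℝ)) ≤
      2 * (K ^ (1 / 3 : ℝ) * M * (U / K) ^ (1 / 3 : ℝ) +
        (K * X) ^ ε * (K + (K * X) ^ (2 / 3 : ℝ)) *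
          ((U / K) ^ (1 / 2 : ℝ) + (U / K) ^ (5 / 2 : ℝ))) := by
  obtain ⟨u, rfl⟩ : ∃ u, U = K * u := ⟨U / K, by field_simp⟩
  have hu : 0 < u := (mul_pos_iff_of_pos_left hK).1 hU
  have hX : 0 ≤ X := hM.trans hMX
  rw [mul_div_cancel_left₀ u hK.ne']
  have a1 : (1 / 2 : ℝ) ^ (-(3 / 10) : ℝ) ≤ 2 := by
    calc (1 / 2 : ℝ) ^ (-(3 / 10) : ℝ) ≤ (1 / 2 : ℝ) ^ (-1 : ℝ) :=
          Real.rpow_le_rpow_of_exponent_ge (by norm_num) (by norm_num) (by norm_num)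
      _ = 2 := by rw [Real.rpow_neg_one]; norm_num
  have a2 : ∀ θ : ℝ, 0 ≤ θ → (K * u * M) ^ θ ≤ (K * X) ^ θ * u ^ θ := fun θ hθ => by
    rw [← Real.mul_rpow (by positivity) hu.le]
    refine Real.rpow_le_rpow (by positivity) ?_ hθ
    calc K * u * M ≤ K * u * X := by gcongr
      _ = _ := by ring
  obtain ⟨P, hP⟩ : ∃ P, P = u ^ (1 / 2 : ℝ) + u ^ (5 / 2 : ℝ) := ⟨_, rfl⟩
  have a3 : u ^ ε * u ≤ P := by
    rw [← Real.rpow_add_one hu.ne', hP]; exact enl_pow hu (by linarith) (by linarith)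
  have a4 : u ^ ε * u ^ (2 / 3 : ℝ) ≤ P := by
    rw [← Real.rpow_add hu, hP]; exact enl_pow hu (by linarith) (by linarith)
  have hP0 : 0 ≤ P := by rw [hP]; positivity
  rw [← hP]
  have b1 : (K * u) ^ (1 / 3 : ℝ) * (1 / 2 : ℝ) ^ (-(3 / 10) : ℝ) * M ≤
      2 * (K ^ (1 / 3 : ℝ) * M * u ^ (1 / 3 : ℝ)) := by
    rw [Real.mul_rpow hK.le hu.le]
    calc _ ≤ K ^ (1 / 3 : ℝ) * u ^ (1 / 3 : ℝ) * 2 * M := by gcongr
      _ = _ := by ring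
  have b2 : (K * u * M) ^ ε * (K * u + (K * u * M) ^ (2 / 3 : ℝ)) ≤
      (K * X) ^ ε * (K + (K * X) ^ (2 / 3 : ℝ)) * P := by
    calc _ ≤ (K * X) ^ ε * u ^ ε * (K * u + (K * X) ^ (2 / 3 : ℝ) * u ^ (2 / 3 : ℝ)) := by
          gcongr
          · exact a2 ε hε.le
          · exact a2 _ (by norm_num)
      _ = (K * X) ^ ε * (K * (u ^ ε * u) + (K * X) ^ (2 / 3 : ℝ) * (u ^ ε * u ^ (2 / 3 : ℝ))) := by ring
      _ ≤ (K * X) ^ ε * (K * P + (K * X) ^ (2 / 3 : ℝ) * P) := by gcongr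
      _ = _ := by ring
  have b3 : 0 ≤ (K * X) ^ ε * (K + (K * X) ^ (2 / 3 : ℝ)) * P := by positivity
  linarith

theorem enl_cpow {x B : ℝ} {z : ℂ} (hB : 0 < B) (h1 : B < x) (h2 : x ≤ 2 * B) (hz : |z.re| ≤ 3) :
    ‖((x / B : ℝ) : ℂ) ^ z‖ ≤ 8 := by
  have a1 : 1 ≤ x / B := (one_le_div hB).2 h1.le
  have a2 : x / B ≤ 2 := (div_le_iff₀ hB).2 h2
  rw [Complex.norm_cpow_eq_rpow_re_of_pos (by linarith)]
  calc (x / B) ^ z.re ≤ (x / B) ^ (3 : ℝ) :=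
        Real.rpow_le_rpow_of_exponent_le a1 ((le_abs_self _).trans hz)
    _ ≤ 2 ^ (3 : ℝ) := Real.rpow_le_rpow (by linarith) a2 (by norm_num)
    _ = 8 := by norm_num

/-- the general row bound from `StAll` -/
theorem enl_row (h : StAll) {ε : ℝ} (hε : 0 < ε) (hε' : ε ≤ 1 / 2) : ∃ C : ℝ, 0 < C ∧
    ∀ (B K : ℝ) (γ : O → ℂ), 0 < B → 0 < K → Supp γ B (2 * B) →
      RowBd (fun _ => True) γ (2 * B) B K 0
        (fun l => C * (K ^ (1 / 3 : ℝ) * (2 * B / nm l)) * ∑ n ∈ ball (2 * B), ‖γ (l * n)‖ ^ 2)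
        (fun l => C * ((K * (2 * B)) ^ ε * (K + (K * (2 * B)) ^ (2 / 3 : ℝ))) *
          ∑ n ∈ ball (2 * B), ‖γ (l * n)‖ ^ 2) := by
  obtain ⟨C₁, h₁⟩ := h ε hε
  have hC : 0 < max C₁ 1 := lt_max_of_lt_right one_pos
  refine ⟨128 * max C₁ 1, by positivity, fun B K γ hB hK hγ l g U z S hl hlX _ _ hU hz hS => ?_⟩
  have hl1 := one_le_nm hl.ne_zero
  have hl0 : 0 < nm l := by linarith
  obtain ⟨M, hM⟩ : ∃ M, M = 2 * B / nm l := ⟨_, rfl⟩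
  have hM1 : 1 ≤ M := by rw [hM]; exact (one_le_div hl0).2 hlX
  have hMX : M ≤ 2 * B := by rw [hM]; exact div_le_self (by positivity) hl1
  obtain ⟨c, hc⟩ : ∃ c : O → ℂ, ∀ n, c n = γ (l * n) * cb g n * ((nm (l * n) / B : ℝ) : ℂ) ^ z :=
    ⟨_, fun _ => rfl⟩
  have hsupp : Supp c 0 M := fun n hn => by
    rw [hc] at hn
    obtain ⟨a1, -, a3⟩ := hγ _ (left_ne_zero_of_mul (left_ne_zero_of_mul hn))
    have a4 := PSq.of_mul_left hl.1 a1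
    refine ⟨a4, nm_pos a4.ne_zero, ?_⟩
    rw [hM, le_div_iff₀ hl0, mul_comm, ← nm_mul]
    exact a3
  have hsub : ball M ⊆ ball (2 * B) := fun n hn => mem_ball.2 ((mem_ball.1 hn).trans hMX)
  have e1 : ∀ k, RS γ (2 * B) B l g k z = ∑ n ∈ ball M, c n * cb k n := fun k => by
    rw [Finset.sum_subset hsub (f := fun n => c n * cb k n) fun n _ hn => ?_]
    · refine Finset.sum_congr rfl fun n _ => ?_
      rw [hc, cb_mul_left]; ring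
    · by_contra h0
      exact hn (mem_ball.2 (hsupp n (left_ne_zero_of_mul h0)).2.2)
  obtain ⟨G, hG⟩ : ∃ G, G = ∑ n ∈ ball (2 * B), ‖γ (l * n)‖ ^ 2 := ⟨_, rfl⟩
  have hG0 : 0 ≤ G := by rw [hG]; positivity
  have e2 : N2 c M ≤ 64 * G := by
    rw [hG, Finset.mul_sum]
    refine le_trans (Finset.sum_le_sum_of_subset_of_nonneg hsub fun _ _ _ => by positivity)
      (Finset.sum_le_sum fun n _ => ?_)
    by_cases h0 : γ (l * n) = 0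
    · simp [hc, h0]
    obtain ⟨-, a2, a3⟩ := hγ _ h0
    have a4 : ‖c n‖ ≤ 8 * ‖γ (l * n)‖ := by
      rw [hc, norm_mul, norm_mul]
      calc _ ≤ ‖γ (l * n)‖ * 1 * 8 := by
            gcongr
            · exact norm_cb_le _ _
            · exact enl_cpow hB a2 a3 hz
        _ = _ := by ring
    calc ‖c n‖ ^ 2 ≤ (8 * ‖γ (l * n)‖) ^ 2 := by gcongr
      _ = _ := by ring
  have key := h₁ U M (1 / 2) S c hU hM1 le_rfl (fun k hk => ⟨(hS k hk).1, (hS k hk).2.1, fun k₀ m e => by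
    have : k₀ ≠ 0 := fun h0 => (hS k hk).1 (by rw [e, h0, zero_mul])
    linarith [one_le_nm this]⟩) hsupp
  simp only [e1, pow_zero, one_mul, ← hG, ← hM]
  refine key.trans ?_
  have e3 := enl_num (K := K) (by linarith : 0 < U) hK (by linarith : 0 ≤ M) hMX hε hε'
  have hN := N2_nonneg c M
  calc _ ≤ max C₁ 1 * (2 * (K ^ (1 / 3 : ℝ) * M * (U / K) ^ (1 / 3 : ℝ) +
        (K * (2 * B)) ^ ε * (K + (K * (2 * B)) ^ (2 / 3 : ℝ)) *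
          ((U / K) ^ (1 / 2 : ℝ) + (U / K) ^ (5 / 2 : ℝ)))) * (64 * G) := by
        gcongr
        exact le_max_left _ _
    _ = _ := by ring

theorem enl_cube {a : ℝ} (ha : 0 < a) : ∃ x, 0 < x ∧ a = x ^ 3 :=
  ⟨a ^ ((3 : ℕ) : ℝ)⁻¹, by positivity, (Real.rpow_inv_natCast_pow ha.le (by norm_num)).symm⟩

theorem enl_rp {t : ℝ} (ht : 0 < t) (θ : ℝ) : (t ^ 3) ^ θ = t ^ (3 * θ) := by
  rw [← Real.rpow_natCast, ← Real.rpow_mul ht.le]; norm_num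

theorem enl_r1 {t : ℝ} (ht : 0 < t) : (t ^ 3) ^ (1 / 3 : ℝ) = t := by
  rw [enl_rp ht]; norm_num

theorem enl_r2 {t : ℝ} (ht : 0 < t) : (t ^ 3) ^ (2 / 3 : ℝ) = t ^ 2 := by
  rw [enl_rp ht]; norm_num

theorem enl_e1 {a A B : ℝ} (ha : 0 < a) (hA : 0 < A) (hB : 0 < B) :
    a * A / B * ((B ^ 2 / (a ^ 2 * A)) ^ (1 / 3 : ℝ) * (2 * B)) =
      2 * (a ^ (1 / 3 : ℝ) * (A * B) ^ (2 / 3 : ℝ)) := by
  obtain ⟨x, hx, rfl⟩ := enl_cube ha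
  obtain ⟨y, hy, rfl⟩ := enl_cube hA
  obtain ⟨w, hw, rfl⟩ := enl_cube hB
  rw [show (w ^ 3) ^ 2 / ((x ^ 3) ^ 2 * y ^ 3) = (w ^ 2 / (x ^ 2 * y)) ^ 3 by field_simp,
    enl_r1 (by positivity), enl_r1 hx, ← mul_pow y, enl_r2 (by positivity)]
  field_simp

theorem enl_e2 {a A B : ℝ} (ha : 0 < a) (hA : 0 < A) (hB : 0 < B) :
    a * A / B * (B ^ 2 / (a ^ 2 * A) + (B ^ 2 / (a ^ 2 * A) * (2 * B)) ^ (2 / 3 : ℝ)) ≤
      2 * (B / a + A ^ (1 / 3 : ℝ) * B * a ^ (-(1 / 3) : ℝ)) := by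
  obtain ⟨x, hx, rfl⟩ := enl_cube ha
  obtain ⟨y, hy, rfl⟩ := enl_cube hA
  obtain ⟨w, hw, rfl⟩ := enl_cube hB
  have a1 : (2 : ℝ) ^ (2 / 3 : ℝ) ≤ 2 :=
    (Real.rpow_le_rpow_of_exponent_le (by norm_num) (by norm_num : (2 / 3 : ℝ) ≤ 1)).trans_eq
      (Real.rpow_one _)
  rw [show (w ^ 3) ^ 2 / ((x ^ 3) ^ 2 * y ^ 3) * (2 * w ^ 3) = 2 * (w ^ 3 / (x ^ 2 * y)) ^ 3 by
      field_simp,
    Real.mul_rpow (by norm_num) (by positivity), enl_r2 (by positivity), enl_r1 hy,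
    Real.rpow_neg (by positivity), enl_r1 hx]
  calc _ ≤ x ^ 3 * y ^ 3 / w ^ 3 * ((w ^ 3) ^ 2 / ((x ^ 3) ^ 2 * y ^ 3) +
        2 * (w ^ 3 / (x ^ 2 * y)) ^ 2) := by gcongr
    _ = w ^ 3 / x ^ 3 + 2 * (y * w ^ 3 * x⁻¹) := by field_simp
    _ ≤ _ := by
      have : 0 ≤ w ^ 3 / x ^ 3 := by positivity
      linarith

theorem enl_e3 {a A B ε δ : ℝ} (ha : 0 < a) (ha1 : a ≤ 1) (hA : 1 ≤ A) (hB : 1 / 2 ≤ B) (hδ : 0 < δ)
    (h : 4 * δ ≤ ε) : (B ^ 2 / (a ^ 2 * A) * (2 * B)) ^ δ * (2 * B) ^ δ ≤ (2 * B / a) ^ ε := by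
  have hB0 : 0 < B := by linarith
  have a1 : 2 * B ≤ 2 * B / a := le_div_self (by positivity) ha ha1
  have a2 : 1 ≤ 2 * B / a := le_trans (by linarith) a1
  have a3 : B ^ 2 / (a ^ 2 * A) ≤ (2 * B / a) ^ 2 := by
    rw [div_pow]
    gcongr
    · linarith
    · exact le_mul_of_one_le_right (by positivity) hA
  rw [← Real.mul_rpow (by positivity) (by positivity)]
  calc _ ≤ ((2 * B / a) ^ 2 * (2 * B / a) * (2 * B / a)) ^ δ := by gcongr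
    _ = (2 * B / a) ^ (4 * δ) := by
      rw [Real.rpow_mul (by positivity)]
      congr 1
      rw [show (4 : ℝ) = (4 : ℕ) by norm_num, Real.rpow_natCast]; ring
    _ ≤ _ := Real.rpow_le_rpow_of_exponent_le a2 h

/-- the sum over the labels -/
theorem enl_lab {X B P E D : ℝ} {γ : O → ℂ} (hγ : Supp γ B X) (hP : 0 ≤ P) (hE : 0 ≤ E)
    (hD : ∀ b, b ≠ 0 → nm b ≤ X → dn b ^ 3 ≤ D) :
    ∑ l ∈ sball X, dn l ^ 2 * (nm l ^ (1 / 3 : ℝ) * (P / nm l * ∑ n ∈ ball X, ‖γ (l * n)‖ ^ 2) +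
      E * ∑ n ∈ ball X, ‖γ (l * n)‖ ^ 2) ≤ P * N2d γ X + E * D * N2 γ X := by
  have e := sum_label hγ fun l => dn l ^ 2 * (nm l ^ (1 / 3 : ℝ) * (P / nm l) + E)
  rw [Finset.sum_congr rfl fun l _ => ?_, e, N2d, N2, Finset.mul_sum, Finset.mul_sum,
    ← Finset.sum_add_distrib]
  swap
  · ring
  refine Finset.sum_le_sum fun b _ => ?_
  by_cases h0 : γ b = 0
  · simp [h0]
  obtain ⟨a1, -, a3⟩ := hγ b h0
  have hb := a1.ne_zero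
  have a4 := one_le_dn hb
  have a5 : ∑ l ∈ pdiv b, dn l ^ 2 * (nm l ^ (1 / 3 : ℝ) * (P / nm l) + E) ≤ dn b ^ 3 * (P + E) := by
    refine (Finset.sum_le_card_nsmul _ _ (dn b ^ 2 * (P + E)) fun l hl => ?_).trans_eq ?_
    · obtain ⟨b1, b2⟩ := (mem_pdiv hb).1 hl
      have b3 := one_le_nm b1.ne_zero
      have b4 : nm l ^ (1 / 3 : ℝ) ≤ nm l :=
        (Real.rpow_le_rpow_of_exponent_le b3 (by norm_num : (1 / 3 : ℝ) ≤ 1)).trans_eq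
          (Real.rpow_one _)
      have b5 : nm l ^ (1 / 3 : ℝ) * (P / nm l) ≤ P :=
        (mul_le_mul_of_nonneg_right b4 (by positivity)).trans_eq (by field_simp)
      have b6 := dn_le_of_dvd hb b2
      have b7 := dn_nonneg l
      gcongr
    · rw [nsmul_eq_mul, ← dn]; ring
  have a6 : dn b ^ 3 ≤ dn b ^ 4 := pow_le_pow_right₀ a4 (by norm_num)
  have a7 := hD b hb a3
  calc _ ≤ ‖γ b‖ ^ 2 * (dn b ^ 3 * (P + E)) := by gcongr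
    _ = P * (‖γ b‖ ^ 2 * dn b ^ 3) + E * dn b ^ 3 * ‖γ b‖ ^ 2 := by ring
    _ ≤ _ := by gcongr

theorem enl (h : StPO) (h' : StAll) : StL := by
  intro ε hε
  obtain ⟨δ, hδ, hδ1, hδ2⟩ : ∃ δ : ℝ, 0 < δ ∧ δ ≤ 1 / 2 ∧ 4 * δ ≤ ε :=
    ⟨min (1 / 2) (ε / 4), by positivity, min_le_left _ _, by linarith [min_le_right (1 / 2) (ε / 4)]⟩
  obtain ⟨C₀, h₀⟩ := h 0
  obtain ⟨C₁, hC₁, h₁⟩ := enl_row h' hδ hδ1
  obtain ⟨C₂, hC₂, h₂⟩ := dn_pow_le 3 hδ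
  have hC₀ : 0 ≤ max C₀ 0 := le_max_right _ _
  refine ⟨max C₀ 0 * (1 + 2 * C₁ + 2 * C₁ * C₂), fun a A B γ ha ha1 hA hB hγ => ?_⟩
  have hB0 : 0 < B := by linarith
  have hA0 : 0 < A := by linarith
  obtain ⟨K, hK⟩ : ∃ K, K = B ^ 2 / (a ^ 2 * A) := ⟨_, rfl⟩
  have hK0 : 0 < K := by rw [hK]; positivity
  have key := h₀ a A B (2 * B) γ _ _ ha ha1 hA hB0 hγ
    (fun l => by have := nm_nonneg l; positivity) (fun l => by positivity)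
    (hK ▸ h₁ B K γ hB0 hK0 hγ)
  have hN := N2_nonneg γ (2 * B)
  have hNd := N2d_nonneg γ (2 * B)
  have lab := enl_lab (P := C₁ * (K ^ (1 / 3 : ℝ) * (2 * B)))
    (E := C₁ * ((K * (2 * B)) ^ δ * (K + (K * (2 * B)) ^ (2 / 3 : ℝ)))) (D := C₂ * (2 * B) ^ δ) hγ
    (by positivity) (by positivity) fun b hb hbX => (h₂ b hb).trans (by
      have := nm_nonneg b
      gcongr)
  obtain ⟨T₁, hT₁⟩ : ∃ T, T = (a * A + Real.sqrt A) * N2 γ (2 * B) := ⟨_, rfl⟩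
  obtain ⟨T₂, hT₂⟩ : ∃ T, T = a ^ (1 / 3 : ℝ) * (A * B) ^ (2 / 3 : ℝ) * N2d γ (2 * B) := ⟨_, rfl⟩
  obtain ⟨T₃, hT₃⟩ : ∃ T, T = (2 * B / a) ^ ε * (B / a + A ^ (1 / 3 : ℝ) * B * a ^ (-(1 / 3) : ℝ)) *
    N2 γ (2 * B) := ⟨_, rfl⟩
  have p₁ : 0 ≤ T₁ := by rw [hT₁]; positivity
  have p₂ : 0 ≤ T₂ := by rw [hT₂]; positivity
  have p₃ : 0 ≤ T₃ := by rw [hT₃]; positivity
  have e1 := enl_e1 ha hA0 hB0
  have e2 := enl_e2 ha hA0 hB0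
  have e3 := enl_e3 ha ha1 hA hB hδ hδ2
  rw [← hK] at e1 e2 e3 key
  have od : OD a A B (2 * B) 0
      (fun l => C₁ * (K ^ (1 / 3 : ℝ) * (2 * B / nm l)) * ∑ n ∈ ball (2 * B), ‖γ (l * n)‖ ^ 2)
      (fun l => C₁ * ((K * (2 * B)) ^ δ * (K + (K * (2 * B)) ^ (2 / 3 : ℝ))) *
        ∑ n ∈ ball (2 * B), ‖γ (l * n)‖ ^ 2) ≤ 2 * C₁ * T₂ + 2 * C₁ * C₂ * T₃ := by
    rw [OD, pow_zero, inv_one, one_mul, Finset.sum_congr rfl fun l _ => ?_]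
    · refine (mul_le_mul_of_nonneg_left lab (by positivity)).trans ?_
      calc _ = C₁ * (a * A / B * (K ^ (1 / 3 : ℝ) * (2 * B))) * N2d γ (2 * B) +
            C₁ * C₂ * ((K * (2 * B)) ^ δ * (2 * B) ^ δ) *
              (a * A / B * (K + (K * (2 * B)) ^ (2 / 3 : ℝ))) * N2 γ (2 * B) := by ring
        _ ≤ C₁ * (2 * (a ^ (1 / 3 : ℝ) * (A * B) ^ (2 / 3 : ℝ))) * N2d γ (2 * B) +
            C₁ * C₂ * (2 * B / a) ^ ε *
              (2 * (B / a + A ^ (1 / 3 : ℝ) * B * a ^ (-(1 / 3) : ℝ))) * N2 γ (2 * B) := by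
          rw [e1]; gcongr
        _ = _ := by rw [hT₂, hT₃]; ring
    · ring
  have od0 : 0 ≤ OD a A B (2 * B) 0
      (fun l => C₁ * (K ^ (1 / 3 : ℝ) * (2 * B / nm l)) * ∑ n ∈ ball (2 * B), ‖γ (l * n)‖ ^ 2)
      (fun l => C₁ * ((K * (2 * B)) ^ δ * (K + (K * (2 * B)) ^ (2 / 3 : ℝ))) *
        ∑ n ∈ ball (2 * B), ‖γ (l * n)‖ ^ 2) := by
    rw [OD]
    refine mul_nonneg (by positivity) (Finset.sum_nonneg fun l _ => ?_)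
    have := nm_nonneg l
    positivity
  rw [← hT₁] at key
  rw [← hT₁, ← hT₂, ← hT₃]
  refine key.trans ((mul_le_mul (le_max_left C₀ 0) (add_le_add le_rfl od) (by positivity) hC₀).trans ?_)
  rw [mul_assoc (max C₀ 0)]
  refine mul_le_mul_of_nonneg_left ?_ hC₀
  have q₁ : 0 ≤ C₁ * C₂ := by positivity
  nlinarith [mul_nonneg hC₁.le p₁, mul_nonneg hC₁.le p₃, mul_nonneg q₁ p₁, mul_nonneg q₁ p₂]

end Crest.Agent.R12.AL
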