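import Crest.Agent.R12.AL.Split
import Crest.Agent.R12.AL.All
import Crest.Agent.R12.AL.L

/-! Row 12, block AL: the large sieve for general rows and columns. -/

set_option autoImplicit false

namespace Crest.Agent.R12

open Crest.Agent.R17
open scoped ComplexConjugate

theorem AL.mn_rpow {K M ε : ℝ} (hK : 1 ≤ K) (hM : 1 ≤ M) (hε : 0 < ε) :
    M ^ (ε / 2) * (K * M) ^ (ε / 2) ≤ (K * M) ^ ε := by
  have h0 : 0 < K * M := by positivity
  have h1 : M ^ (ε / 2) ≤ (K * M) ^ (ε / 2) :=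
    Real.rpow_le_rpow (by positivity) (by nlinarith) (by positivity)
  calc M ^ (ε / 2) * (K * M) ^ (ε / 2) ≤ (K * M) ^ (ε / 2) * (K * M) ^ (ε / 2) := by gcongr
    _ = (K * M) ^ ε := by rw [← Real.rpow_add h0, add_halves]

theorem stLSG (h : StLS) : StLSG := by
  intro ε hε
  obtain ⟨C₁, h₁⟩ := h (ε / 2) (half_pos hε)
  obtain ⟨C₂, hC₂, h₂⟩ := AL.split (half_pos hε)
  refine ⟨C₂ * max C₁ 0, fun K M S c hK hM hS hc => ?_⟩
  have hC : 0 ≤ max C₁ 0 := le_max_right _ _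
  have hX : 0 ≤ K + M + (K * M) ^ (2 / 3 : ℝ) := by positivity
  have key := h₂ M M 1 (max C₁ 0 * (K * M) ^ (ε / 2) * (K + M + (K * M) ^ (2 / 3 : ℝ))) S c hM one_pos
    (by simp) (by positivity) hc
    (fun n _ => ⟨1, fun p hp h1 => absurd (isUnit_of_dvd_one h1) hp.not_isUnit, one_dvd _, nm_one.ge⟩)
    (fun c' hc' => (h₁ K M S c' hK hM hS hc').trans (by
      have := N2_nonneg c' M
      gcongr
      exact le_max_left _ _))
  refine key.trans ?_
  have := AL.mn_rpow hK hM hε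
  calc C₂ * M ^ (ε / 2) * (max C₁ 0 * (K * M) ^ (ε / 2) * (K + M + (K * M) ^ (2 / 3 : ℝ))) * M
      = C₂ * max C₁ 0 * (M ^ (ε / 2) * (K * M) ^ (ε / 2)) * (K + M + (K * M) ^ (2 / 3 : ℝ)) * M := by
        ring
    _ ≤ _ := by gcongr

theorem stAll (h : StLS) : StAll := AL.all h

theorem stAllG (h : StAll) : StAllG := by
  intro ε hε
  obtain ⟨C₁, h₁⟩ := h (ε / 2) (half_pos hε)
  obtain ⟨C₂, hC₂, h₂⟩ := AL.split (half_pos hε)
  refine ⟨C₂ * max C₁ 0, fun U M F Q S c hU hM hF hQ hS hc hs => ?_⟩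
  have hC : 0 ≤ max C₁ 0 := le_max_right _ _
  have hQ0 : 0 < Q := by linarith
  have hF0 : 0 < F := by linarith
  obtain ⟨X, hX⟩ : ∃ X, X = U + U ^ (1 / 3 : ℝ) * Q ^ (-(3 / 10) : ℝ) * M / F +
    (U * M) ^ (2 / 3 : ℝ) * F ^ (-(2 / 3) : ℝ) := ⟨_, rfl⟩
  have hX0 : 0 ≤ X := by rw [hX]; positivity
  rw [← hX]
  rcases lt_or_ge M F with hMF | hMF
  · have : ∀ k ∈ S, ‖∑ n ∈ pball M, c n * cb k n‖ ^ 2 = 0 := fun k _ => by
      rw [Finset.sum_eq_zero fun n hn => ?_, norm_zero, zero_pow two_ne_zero]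
      have hn' := mem_pball.1 hn
      by_contra h0
      obtain ⟨s, -, h1, h2⟩ := hs n (left_ne_zero_of_mul h0)
      have := nm_le_of_dvd h1 hn'.2.ne_zero
      linarith [hn'.1]
    rw [Finset.sum_eq_zero this]
    positivity
  have hM' : 1 ≤ M / F := (one_le_div hF0).2 hMF
  have e1 : (U * (M / F)) ^ (2 / 3 : ℝ) = (U * M) ^ (2 / 3 : ℝ) * F ^ (-(2 / 3) : ℝ) := by
    rw [← mul_div_assoc, Real.div_rpow (by positivity) hF0.le, Real.rpow_neg hF0.le, div_eq_mul_inv]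
  have e2 : (U * (M / F)) ^ (ε / 2) ≤ (U * M) ^ (ε / 2) := by
    refine Real.rpow_le_rpow (by positivity) ?_ (by positivity)
    gcongr
    exact div_le_self (by positivity) hF
  have e3 : 1 ≤ (U * M) ^ (ε / 2) := Real.one_le_rpow (by nlinarith) (by positivity)
  have e4 : U ^ (1 / 3 : ℝ) * Q ^ (-(3 / 10) : ℝ) * (M / F) +
      (U * (M / F)) ^ (ε / 2) * (U + (U * (M / F)) ^ (2 / 3 : ℝ)) ≤ (U * M) ^ (ε / 2) * X := by
    have a1 : 0 ≤ U ^ (1 / 3 : ℝ) * Q ^ (-(3 / 10) : ℝ) * (M / F) := by positivity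
    have a2 : 0 ≤ U + (U * M) ^ (2 / 3 : ℝ) * F ^ (-(2 / 3) : ℝ) := by positivity
    rw [e1, hX, mul_div_assoc]
    nlinarith [mul_le_mul_of_nonneg_right e2 a2, mul_le_mul_of_nonneg_right e3 a1]
  have key := h₂ M (M / F) F (max C₁ 0 * ((U * M) ^ (ε / 2) * X)) S c hM hF0 le_rfl (by positivity) hc hs
    (fun c' hc' => (h₁ U (M / F) Q S c' hU hM' hQ hS hc').trans (by
      have := N2_nonneg c' (M / F)
      refine mul_le_mul_of_nonneg_right ?_ this
      exact mul_le_mul (le_max_left _ _) e4 (by positivity) hC))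
  refine key.trans ?_
  have := AL.mn_rpow hU hM hε
  calc C₂ * M ^ (ε / 2) * (max C₁ 0 * ((U * M) ^ (ε / 2) * X)) * M
      = C₂ * max C₁ 0 * (M ^ (ε / 2) * (U * M) ^ (ε / 2)) * X * M := by ring
    _ ≤ _ := by gcongr

theorem stL (h : StPO) (h' : StAll) : StL := AL.enl h h'

end Crest.Agent.R12
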