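import Crest.Agent.R12.AL.Cls

/-! Row 12, block AL: rows of small conductor.  Prefix for helper lemmas: `rwa_`. -/

set_option autoImplicit false

namespace Crest.Agent.R12.AL

open Crest.Agent.R17
open scoped ComplexConjugate

/-- With `x = nm k₁`, `y = nm k₂`, `z = nm m`:
`(x y)² z² ≤ (U M)^(2/3)` since `((x y)² z²)³ = (x² y)² (x y²)² z⁶ · 1 ≤ M² U²`
(`x⁶ y⁶ z⁶ = (x² y)² · (x y² z³)²`). -/
theorem rwa_num {x y z U M : ℝ} (hx : 0 ≤ x) (hy : 0 ≤ y) (hz : 0 < z) (h1 : x * y ^ 2 * z ^ 3 ≤ U)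
    (h2 : x ^ 2 * y ≤ M) : (x * y) ^ 2 ≤ (U * M) ^ (2 / 3 : ℝ) / z ^ 2 := by
  rw [le_div_iff₀ (by positivity)]
  have h3 : (x * y * z) ^ 3 ≤ U * M := by
    calc (x * y * z) ^ 3 = (x * y ^ 2 * z ^ 3) * (x ^ 2 * y) := by ring
      _ ≤ U * M := mul_le_mul h1 h2 (by positivity) (le_trans (by positivity) h1)
  have h0 : 0 ≤ x * y * z := by positivity
  calc (x * y) ^ 2 * z ^ 2 = ((x * y * z) ^ 3) ^ (2 / 3 : ℝ) := by
        rw [← Real.rpow_natCast (x * y * z) 3, ← Real.rpow_mul h0]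
        norm_num
        ring
    _ ≤ _ := Real.rpow_le_rpow (by positivity) h3 (by norm_num)

/-- Cover `S` (`ctb_cover`, `FR_nonneg`) by the triples `(u, m, k₀)`, `g = u * m ^ 3 * k₀`, with
`u ∈ ball 9` (`card_ball_le`: at most `99`), `m ∈ A = (ball ((U / Q) ^ (1/3))).filter (· ≠ 0)` (at most
`11 (U/Q)^(1/3)` elements: `card_le_of_nm_le`), `k₀ ∈ T m = (ball U).filter fun k => Prim k ∧ PowFree 3 k ∧
∃ D, D ≠ 0 ∧ k ∣ D ^ 2 ∧ nm D ^ 2 ≤ (U M)^(2/3) / nm m ^ 2` (take `D = k₁ k₂`, `rwa_num`; use `Finset.sigma` or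
filter a product).  For fixed `(u, m)`: `FR_mul`, `cls` with `W = 11 U` (`card_ball_le`; `log (11 U) ≤ 3 + log U`),
`Supp.mul`, `N2_twist`.  Finally `∑_{m ∈ A} nm m ^ (-2) ≤ C` (`sum_nm_rpow_tail` with `σ = 2`, `X = 1`). -/
theorem rowA : ∃ C : ℝ, 0 < C ∧ ∀ (U M Q : ℝ) (S : Finset O) (c : O → ℂ), 1 ≤ U → 1 ≤ M → 0 < Q →
    Supp c 0 M →
    (∀ k ∈ S, nm k ≤ U ∧ ∃ u k₁ k₂ m : O, u ≠ 0 ∧ nm u ≤ 9 ∧ Prim k₁ ∧ Prim k₂ ∧
      PowFree 3 (k₁ * k₂ ^ 2) ∧ m ≠ 0 ∧ k = u * (k₁ * k₂ ^ 2) * m ^ 3 ∧ Q * nm m ^ 3 ≤ U ∧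
      nm k₁ ^ 2 * nm k₂ ≤ M) →
    ∑ k ∈ S, FR c M k ≤
      C * ((U / Q) ^ (1 / 3 : ℝ) * M + (U * M) ^ (2 / 3 : ℝ) * (1 + Real.log U)) * N2 c M := by
  classical
  obtain ⟨C₁, hC₁, hcls⟩ := cls
  obtain ⟨C₂, hC₂, htail⟩ := sum_nm_rpow_tail (σ := 2) (by norm_num)
  refine ⟨99 * C₁ * (11 + 12 * C₂), by positivity, fun U M Q S c hU hM hQ hc hS => ?_⟩
  set V : ℝ := (U / Q) ^ (1 / 3 : ℝ) with hV
  set R : ℝ := (U * M) ^ (2 / 3 : ℝ) with hR
  have hV0 : 0 ≤ V := by positivity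
  have hR0 : 0 ≤ R := by positivity
  have hL0 : 0 ≤ Real.log U := Real.log_nonneg hU
  have hN0 := N2_nonneg c M
  set A : Finset O := (ball V).filter (· ≠ 0) with hA
  set T : O → Finset O := fun m => (ball U).filter fun k => Prim k ∧ PowFree 3 k ∧
    ∃ D : O, D ≠ 0 ∧ k ∣ D ^ 2 ∧ nm D ^ 2 ≤ R / nm m ^ 2 with hT
  have hcov := ctb_cover S ((ball 9 ×ˢ A).sigma fun x => T x.2)
    (fun x => x.1.1 * x.1.2 ^ 3 * x.2) (FR c M) (FR_nonneg c M) (by
      intro k hk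
      obtain ⟨hkU, u, k₁, k₂, m, hu, hu9, h1, h2, hpf, hm, rfl, hQm, hkM⟩ := hS k hk
      have hu1 := one_le_nm hu
      have hm1 := one_le_nm hm
      have hk1 := nm_nonneg k₁
      have hk2 := nm_nonneg k₂
      simp only [nm_mul, nm_pow] at hkU
      have h4 : nm k₁ * nm k₂ ^ 2 * nm m ^ 3 ≤ U := by
        refine le_trans ?_ hkU
        have : 0 ≤ nm k₁ * nm k₂ ^ 2 * nm m ^ 3 := by positivity
        nlinarith
      refine ⟨⟨(u, m), k₁ * k₂ ^ 2⟩, ?_, by ring⟩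
      simp only [Finset.mem_sigma, Finset.mem_product, mem_ball, hA, hT, Finset.mem_filter]
      refine ⟨⟨hu9, ?_, hm⟩, ?_, h1.mul (h2.pow 2), hpf, k₁ * k₂,
        mul_ne_zero h1.ne_zero h2.ne_zero, ⟨k₁, by ring⟩, ?_⟩
      · have h5 : nm m ^ 3 ≤ U / Q := by
          rw [le_div_iff₀ hQ]; linarith
        calc nm m = (nm m ^ 3) ^ (1 / 3 : ℝ) := by
              rw [← Real.rpow_natCast (nm m) 3, ← Real.rpow_mul (nm_nonneg m)]
              norm_num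
          _ ≤ V := Real.rpow_le_rpow (by positivity) h5 (by norm_num)
      · rw [nm_mul, nm_pow]
        refine le_trans ?_ h4
        exact le_mul_of_one_le_right (by positivity) (one_le_pow₀ hm1)
      · rw [nm_mul]
        exact rwa_num hk1 hk2 (by linarith) h4 hkM)
  refine hcov.trans ?_
  rw [Finset.sum_sigma, Finset.sum_product]
  have hlog : 1 + Real.log (11 * U) ≤ 12 * (1 + Real.log U) := by
    rw [Real.log_mul (by norm_num) (by linarith)]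
    have := Real.log_le_sub_one_of_pos (show (0 : ℝ) < 11 by norm_num)
    linarith
  have hin : ∀ u m : O, ∑ k ∈ T m, FR c M (u * m ^ 3 * k) ≤
      C₁ * N2 c M * (M + 12 * (R * (1 + Real.log U)) * nm m ^ (-2 : ℝ)) := by
    intro u m
    have hb : ((T m).card : ℝ) ≤ 11 * U := by
      refine le_trans ?_ (card_ball_le hU)
      exact_mod_cast Finset.card_filter_le _ _
    have h1 := hcls M (R / nm m ^ 2) (11 * U) (T m) (fun n => c n * cb (u * m ^ 3) n) hM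
      (by positivity) (by linarith) hb (fun k hk => (Finset.mem_filter.1 hk).2)
      (fun b hb => hc b (left_ne_zero_of_mul hb))
    rw [Finset.sum_congr rfl fun k _ => FR_mul c M (u * m ^ 3) k]
    have h2 := N2_twist c M (u * m ^ 3)
    have h3 : nm m ^ (-2 : ℝ) = (nm m ^ 2)⁻¹ := by
      rw [Real.rpow_neg (nm_nonneg m)]
      norm_num
    have h4 : 0 ≤ R / nm m ^ 2 := by positivity
    have h5 : M + R / nm m ^ 2 * (1 + Real.log (11 * U)) ≤
        M + 12 * (R * (1 + Real.log U)) * nm m ^ (-2 : ℝ) := by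
      rw [h3]
      have := mul_le_mul_of_nonneg_left hlog h4
      calc _ ≤ M + R / nm m ^ 2 * (12 * (1 + Real.log U)) := by linarith
        _ = _ := by rw [div_eq_mul_inv]; ring
    have h6 : 0 ≤ M + 12 * (R * (1 + Real.log U)) * nm m ^ (-2 : ℝ) := by
      rw [h3]; positivity
    calc _ ≤ _ := h1
      _ ≤ C₁ * (M + 12 * (R * (1 + Real.log U)) * nm m ^ (-2 : ℝ)) * N2 c M :=
          mul_le_mul (mul_le_mul_of_nonneg_left h5 hC₁.le) h2 (N2_nonneg _ _) (by positivity)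
      _ = _ := by ring
  have hA1 : (A.card : ℝ) ≤ 11 * V :=
    card_le_of_nm_le hV0 fun n hn => ⟨(Finset.mem_filter.1 hn).2,
      mem_ball.1 (Finset.mem_filter.1 hn).1⟩
  have hA2 : ∑ m ∈ A, nm m ^ (-2 : ℝ) ≤ C₂ := by
    have := htail 1 A one_pos fun n hn => one_le_nm (Finset.mem_filter.1 hn).2
    simpa using this
  have hrow : ∀ u : O, ∑ m ∈ A, ∑ k ∈ T m, FR c M (u * m ^ 3 * k) ≤
      C₁ * (11 + 12 * C₂) * (V * M + R * (1 + Real.log U)) * N2 c M := by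
    intro u
    refine (Finset.sum_le_sum fun m _ => hin u m).trans ?_
    rw [← Finset.mul_sum, Finset.sum_add_distrib, Finset.sum_const, nsmul_eq_mul, ← Finset.mul_sum]
    have h1 : 0 ≤ R * (1 + Real.log U) := by positivity
    have h2 : 0 ≤ V * M := by positivity
    have h3 : (A.card : ℝ) * M ≤ 11 * V * M := mul_le_mul_of_nonneg_right hA1 (by linarith)
    have h4 : 12 * (R * (1 + Real.log U)) * ∑ m ∈ A, nm m ^ (-2 : ℝ) ≤
        12 * (R * (1 + Real.log U)) * C₂ := mul_le_mul_of_nonneg_left hA2 (by positivity)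
    have h5 : (A.card : ℝ) * M + 12 * (R * (1 + Real.log U)) * ∑ m ∈ A, nm m ^ (-2 : ℝ) ≤
        (11 + 12 * C₂) * (V * M + R * (1 + Real.log U)) := by
      have := mul_nonneg hC₂.le h2
      nlinarith
    calc _ ≤ C₁ * N2 c M * ((11 + 12 * C₂) * (V * M + R * (1 + Real.log U))) :=
          mul_le_mul_of_nonneg_left h5 (by positivity)
      _ = _ := by ring
  refine (Finset.sum_le_sum fun u _ => hrow u).trans ?_
  rw [Finset.sum_const, nsmul_eq_mul]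
  have h9 : ((ball 9).card : ℝ) ≤ 99 := by
    have := card_ball_le (X := 9) (by norm_num)
    linarith
  calc _ ≤ 99 * (C₁ * (11 + 12 * C₂) * (V * M + R * (1 + Real.log U)) * N2 c M) :=
        mul_le_mul_of_nonneg_right h9 (by positivity)
    _ = _ := by ring

end Crest.Agent.R12.AL
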