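import Crest.Agent.R12.AL.Defs

/-! Row 12, block AL: splitting off the squarefull part of the columns.
Prefix for helper lemmas: `spl_`. -/

set_option autoImplicit false

namespace Crest.Agent.R12.AL

open Crest.Agent.R17
open scoped ComplexConjugate

/-- A squarefull divisor of `s m` (`m` squarefree, coprime to `s`) divides `s`: every prime `p ∣ s'` has
`p² ∣ s m`; if `p ∣ m` then `p ∤ s`, so `p² ∣ m`, impossible.  Hence `s'` is coprime to `m`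
(`isCoprime_of_prime_dvd` or `Prim.coprime_iff` for `m`), `IsCoprime.dvd_of_dvd_mul_right`. -/
theorem spl_dvd {s' s m : O} (hs' : Sqfull s') (hm : PSq m) (hc : IsCoprime s m) (h : s' ∣ s * m) :
    s' ∣ s := by
  have hco : IsCoprime m s' := (hm.1.coprime_iff s').2 fun p hp _ h1 h2 => by
    have h3 : p ^ 2 ∣ s * m := (hs' p hp h2).trans h
    have h4 : IsCoprime (p ^ 2) s := (hc.symm.of_isCoprime_of_dvd_left h1).pow_left
    have h5 : p * p ∣ m := by rw [← sq]; exact h4.dvd_of_dvd_mul_left h3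
    exact hp.not_isUnit (hm.2 p h5)
  exact hco.symm.dvd_of_dvd_mul_right h

open Classical in
/-- `Prim.exists_sqfull`, `sqfull_unique`: the map `(s, m) ↦ s m` is a bijection from the pairs with
`Prim s`, `Sqfull s`, `PSq m`, `IsCoprime s m`, `nm (s m) ≤ M` onto `pball M`
(`Finset.sum_bij`/`Finset.sum_nbij'` after `Finset.sum_product'`, `Finset.sum_filter`). -/
theorem spl_sum (M : ℝ) (f : O → ℂ) :
    ∑ n ∈ pball M, f n = ∑ s ∈ (pball M).filter Sqfull, ∑ m ∈ ball M,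
      if PSq m ∧ IsCoprime s m ∧ nm (s * m) ≤ M then f (s * m) else 0 := by
  rw [← Finset.sum_product', ← Finset.sum_filter]
  symm
  refine Finset.sum_bij (fun q _ => q.1 * q.2) ?_ ?_ ?_ fun _ _ => rfl
  · intro q hq
    simp only [Finset.mem_filter, Finset.mem_product, mem_pball, mem_ball] at hq
    exact mem_pball.2 ⟨hq.2.2.2, hq.1.1.1.2.mul hq.2.1.1⟩
  · intro q hq q' hq' e
    simp only [Finset.mem_filter, Finset.mem_product, mem_pball, mem_ball] at hq hq'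
    obtain ⟨e1, e2⟩ := sqfull_unique hq.1.1.1.2 hq'.1.1.1.2 hq.2.1.1 hq.1.1.2 hq'.1.1.2 hq.2.1.2
      hq'.2.1.2 hq.2.2.1 hq'.2.2.1 e
    exact Prod.ext e1 e2
  · intro n hn
    obtain ⟨h1, h2⟩ := mem_pball.1 hn
    obtain ⟨s, m, hs, hm, h3, h4, h5, rfl⟩ := h2.exists_sqfull
    refine ⟨(s, m), ?_, rfl⟩
    simp only [Finset.mem_filter, Finset.mem_product, mem_pball, mem_ball]
    exact ⟨⟨⟨⟨(nm_le_of_dvd (dvd_mul_right s m) h2.ne_zero).trans h1, hs⟩, h3⟩,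
      (nm_le_of_dvd (dvd_mul_left m s) h2.ne_zero).trans h1⟩, ⟨hm, h4⟩, h5, h1⟩

theorem splb_cs {T : Finset O} (a x : O → ℂ) (w : O → ℝ) (ha : ∀ s, ‖a s‖ ≤ 1)
    (hw : ∀ s ∈ T, 0 < w s) :
    ‖∑ s ∈ T, a s * x s‖ ^ 2 ≤ (∑ s ∈ T, w s) * ∑ s ∈ T, ‖x s‖ ^ 2 / w s := by
  have h1 : ‖∑ s ∈ T, a s * x s‖ ≤ ∑ s ∈ T, ‖x s‖ :=
    (norm_sum_le _ _).trans (Finset.sum_le_sum fun s _ =>
      (norm_mul _ _).trans_le (mul_le_of_le_one_left (norm_nonneg _) (ha s)))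
  refine (pow_le_pow_left₀ (norm_nonneg _) h1 2).trans ?_
  refine Finset.sum_sq_le_sum_mul_sum_of_sq_le_mul T (fun s hs => (hw s hs).le)
    (fun s hs => div_nonneg (by positivity) (hw s hs).le) fun s hs => ?_
  rw [mul_div_cancel₀ _ (hw s hs).ne']

theorem splb_ball {c : O → ℂ} {M M' : ℝ} (h : ∀ m, c m ≠ 0 → nm m ≤ M ∧ nm m ≤ M') (g : O → ℂ) :
    ∑ m ∈ ball M, c m * g m = ∑ m ∈ ball M', c m * g m := by
  classical
  have key : ∀ X : ℝ, (∀ m, c m ≠ 0 → nm m ≤ X) →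
      ∑ m ∈ ball X, c m * g m = ∑ m ∈ ball (max M M' ⊔ X), c m * g m := fun X hX =>
    Finset.sum_subset (fun m hm => mem_ball.2 ((mem_ball.1 hm).trans le_sup_right)) fun m _ hm => by
      by_cases h0 : c m = 0
      · rw [h0, zero_mul]
      · exact absurd (mem_ball.2 (hX m h0)) hm
  rw [key M fun m hm => (h m hm).1, key M' fun m hm => (h m hm).2,
    sup_eq_left.2 (le_max_left M M'), sup_eq_left.2 (le_max_right M M')]

theorem splb_N2 {c : O → ℂ} {X Y : ℝ} (hY : 0 ≤ Y) (h1 : ∀ m, ‖c m‖ ≤ 1)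
    (h : ∀ m, c m ≠ 0 → m ≠ 0 ∧ nm m ≤ Y) : N2 c X ≤ 11 * Y := by
  classical
  unfold N2
  rw [← Finset.sum_filter_of_ne (p := fun m => c m ≠ 0) fun m _ hm h0 => hm (by simp [h0])]
  refine le_trans ?_ (card_le_of_nm_le hY (A := (ball X).filter fun m => c m ≠ 0)
    fun m hm => h m (Finset.mem_filter.1 hm).2)
  rw [Finset.card_eq_sum_ones, Nat.cast_sum]
  exact Finset.sum_le_sum fun m _ => by
    simpa using h1 m

/-- Put `c_s m = if PSq m ∧ IsCoprime s m ∧ nm (s m) ≤ M then c (s m) * 1 else 0`.  If `c_s m ≠ 0` then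
`F ≤ nm s` (`spl_dvd`, `nm_le_of_dvd`), so `nm m ≤ M / nm s ≤ M / F ≤ M'`: `Supp c_s 0 M'`, and the sums of
`c_s m * cb k m` over `ball M` and `ball M'` agree (`Finset.sum_subset` twice, or both equal the sum over the
intersection).  By `spl_sum` and `cb_mul_right`, the row sum is `∑_s cb k s * x_s`, `x_s = ∑_{m ∈ ball M'} c_s m * cb k m`.
Cauchy–Schwarz with weights `w_s = nm s ^ (-1/2)`:
`‖∑ cb k s * x_s‖² ≤ (∑ ‖x_s‖)² ≤ (∑ w_s) ∑ ‖x_s‖² / w_s` (`Finset.sum_mul_sq_le_sq_mul_sq` or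
`Finset.inner_mul_le_norm_mul_norm`), `∑_k ‖x_s‖² ≤ D * N2 c_s M' ≤ D * 11 M / nm s` (`card_le_of_nm_le`), so
the total is `≤ (∑ w_s)² * 11 D M`, and `∑ w_s ≤ C M^(ε/2)` (`sum_sqfull_le`). -/
theorem split {ε : ℝ} (hε : 0 < ε) : ∃ C : ℝ, 0 < C ∧
    ∀ (M M' F D : ℝ) (S : Finset O) (c : O → ℂ), 1 ≤ M → 0 < F → M / F ≤ M' → 0 ≤ D →
      (∀ n, ‖c n‖ ≤ 1) → (∀ n, c n ≠ 0 → ∃ s : O, Sqfull s ∧ s ∣ n ∧ F ≤ nm s) →
      (∀ c' : O → ℂ, Supp c' 0 M' → ∑ k ∈ S, FR c' M' k ≤ D * N2 c' M') →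
      ∑ k ∈ S, ‖∑ n ∈ pball M, c n * cb k n‖ ^ 2 ≤ C * M ^ ε * D * M := by
  classical
  obtain ⟨C, hC, hsum⟩ := sum_sqfull_le (half_pos hε)
  refine ⟨11 * C ^ 2, by positivity, fun M M' F D S c hM hF hM' hD hc hs hS => ?_⟩
  set T := (pball M).filter Sqfull with hT
  have hT0 : ∀ s ∈ T, s ≠ 0 := fun s hs => (mem_pball.1 (Finset.mem_filter.1 hs).1).2.ne_zero
  set cs : O → O → ℂ := fun s m =>
    if PSq m ∧ IsCoprime s m ∧ nm (s * m) ≤ M then c (s * m) else 0 with hcs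
  have h1 : ∀ s ∈ T, ∀ m, cs s m ≠ 0 → PSq m ∧ nm m ≤ M / nm s ∧ nm m ≤ M ∧ nm m ≤ M' := by
    intro s hsT m h0
    have hp : PSq m ∧ IsCoprime s m ∧ nm (s * m) ≤ M := by
      by_contra h
      exact h0 (if_neg h)
    have h0' : c (s * m) ≠ 0 := fun h => h0 (by simp only [hcs]; rw [if_pos hp, h])
    obtain ⟨s', a1, a2, a3⟩ := hs _ h0'
    have a4 := a3.trans (nm_le_of_dvd (spl_dvd a1 hp.1 hp.2.1 a2) (hT0 s hsT))
    have a5 : nm m ≤ M / nm s := by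
      rw [le_div_iff₀ (nm_pos (hT0 s hsT)), mul_comm, ← nm_mul]
      exact hp.2.2
    refine ⟨hp.1, a5, a5.trans (div_le_self (by linarith) (one_le_nm (hT0 s hsT))), ?_⟩
    exact (a5.trans (div_le_div_of_nonneg_left (by linarith) hF a4)).trans hM'
  have h2 : ∀ k, ∑ n ∈ pball M, c n * cb k n = ∑ s ∈ T, cb k s * ∑ m ∈ ball M', cs s m * cb k m := by
    intro k
    rw [spl_sum]
    refine Finset.sum_congr rfl fun s hsT => ?_
    rw [← splb_ball (fun m hm => (h1 s hsT m hm).2.2), Finset.mul_sum]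
    refine Finset.sum_congr rfl fun m _ => ?_
    simp only [hcs]
    split_ifs
    · rw [cb_mul_right]
      ring
    · simp
  set w : O → ℝ := fun s => nm s ^ (-(1 / 2) : ℝ) with hw
  have hw0 : ∀ s ∈ T, 0 < w s := fun s hsT => Real.rpow_pos_of_pos (nm_pos (hT0 s hsT)) _
  have hW : ∑ s ∈ T, w s ≤ C * M ^ (ε / 2) := hsum M T hM fun s hsT =>
    ⟨hT0 s hsT, (Finset.mem_filter.1 hsT).2, (mem_pball.1 (Finset.mem_filter.1 hsT).1).1⟩
  have hW0 : 0 ≤ ∑ s ∈ T, w s := Finset.sum_nonneg fun s hsT => (hw0 s hsT).le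
  have h3 : ∀ s ∈ T, (∑ k ∈ S, FR (cs s) M' k) / w s ≤ 11 * D * M * w s := by
    intro s hsT
    have hn := nm_pos (hT0 s hsT)
    have a1 := hS (cs s) fun m hm =>
      ⟨(h1 s hsT m hm).1, nm_pos (h1 s hsT m hm).1.ne_zero, (h1 s hsT m hm).2.2.2⟩
    have a2 : N2 (cs s) M' ≤ 11 * (M / nm s) := splb_N2 (by positivity)
      (fun m => by
        simp only [hcs]
        split_ifs
        · exact hc _
        · simp)
      fun m hm => ⟨(h1 s hsT m hm).1.ne_zero, (h1 s hsT m hm).2.1⟩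
    have a3 : w s * w s = (nm s)⁻¹ := by
      simp only [hw]
      rw [← Real.rpow_add hn, ← Real.rpow_neg_one]
      norm_num
    rw [div_le_iff₀ (hw0 s hsT), mul_assoc _ (w s), a3]
    refine (a1.trans (mul_le_mul_of_nonneg_left a2 hD)).trans_eq ?_
    rw [div_eq_mul_inv]
    ring
  calc ∑ k ∈ S, ‖∑ n ∈ pball M, c n * cb k n‖ ^ 2
      ≤ ∑ k ∈ S, (∑ s ∈ T, w s) * ∑ s ∈ T, FR (cs s) M' k / w s :=
        Finset.sum_le_sum fun k _ => by
          rw [h2]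
          exact splb_cs _ _ w (fun s => norm_cb_le k s) hw0
    _ = (∑ s ∈ T, w s) * ∑ s ∈ T, (∑ k ∈ S, FR (cs s) M' k) / w s := by
        rw [← Finset.mul_sum, Finset.sum_comm]
        simp only [Finset.sum_div]
    _ ≤ (∑ s ∈ T, w s) * ∑ s ∈ T, 11 * D * M * w s :=
        mul_le_mul_of_nonneg_left (Finset.sum_le_sum h3) hW0
    _ = 11 * D * M * (∑ s ∈ T, w s) ^ 2 := by
        rw [← Finset.mul_sum]
        ring
    _ ≤ 11 * D * M * (C * M ^ (ε / 2)) ^ 2 :=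
        mul_le_mul_of_nonneg_left (pow_le_pow_left₀ hW0 hW 2) (by positivity)
    _ = 11 * C ^ 2 * M ^ ε * D * M := by
        rw [mul_pow, ← Real.rpow_natCast (M ^ (ε / 2)), ← Real.rpow_mul (by linarith)]
        rw [show ε / 2 * ((2 : ℕ) : ℝ) = ε by push_cast; ring]
        ring

end Crest.Agent.R12.AL
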